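import Vale.Agent.P154.Pois.Wide.Data

/-!
# Kernel checks
-/

noncomputable section

namespace Vale.P154.PS.Wide

theorem tree0UP_ok :
    halfOk maj0U.terms 12 2 1 106 117 87 130 tree0UP = true := by
  decide +kernel

theorem tree0UN_ok :
    halfOk maj0U.terms (-18) 2 (-1) 109 120 87 130 tree0UN = true := by
  decide +kernel

theorem tree0DP_ok :
    halfOk maj0D.terms 12 2 1 106 117 87 130 tree0DP = true := by
  decide +kernel

theorem tree0DN_ok :
    halfOk maj0D.terms (-18) 2 (-1) 109 120 87 130 tree0DN = true := by
  decide +kernel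

theorem tree1DP_ok :
    halfOk maj1D.terms 12 2 1 106 117 130 250 tree1DP = true := by
  decide +kernel

theorem tree1DN_ok :
    halfOk maj1D.terms (-18) 2 (-1) 109 120 130 250 tree1DN = true := by
  decide +kernel

end Vale.P154.PS.Wide
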