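import Vale.Agent.P154.Pois.Wide.Data

/-!
# Kernel checks
-/

noncomputable section

namespace Vale.P154.PS.Wide

theorem tree2UP_ok :
    halfOk maj2U.terms 12 2 1 106 117 250 342 tree2UP = true := by
  decide +kernel

theorem tree2UN_ok :
    halfOk maj2U.terms (-18) 2 (-1) 109 120 250 342 tree2UN = true := by
  decide +kernel

end Vale.P154.PS.Wide
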