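import Vale.Agent.P154.Pois.Wide.CheckMaj
import Vale.Agent.P154.Pois.Wide.Check0
import Vale.Agent.P154.Pois.Wide.Check1P
import Vale.Agent.P154.Pois.Wide.Check1N
import Vale.Agent.P154.Pois.Wide.Check2

/-!
# All kernel checks
-/
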