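import Vale.Agent.P154.Pois.Main
import Vale.Agent.P154.Pois.Wide.Check

/-!
# Three states, Poisson offspring: descent from `57 / 200` to `87 / 1000`

For `-1/2 ≤ lam ≤ 0` and `d * lam ^ 2 ≤ 1` the potential `p + (18 t⁻ + 12 t⁺ + 22 w) / 100` of the
scaled moments drops by at least `2 / 10 ^ 6` per generation on its range `[87/1000, 342/1000]`.
-/

noncomputable section

namespace Vale.P154.PS.Wide

open Finset Filter Topology
open scoped ENNReal

/-- The potential. -/
def wpot (p t w : ℝ) : ℝ := p + (max (-18 * t) (12 * t) + 22 * w) / 100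

section

variable {d lam : ℝ} (hd : 0 < d) (h0 : -(1 / 2) ≤ lam) (h1 : lam ≤ 0)

include hd h0 h1

theorem cmon_mean15 (n : ℕ) (j : Fin 15) :
    d * (mom d lam n (cmon (bet15 j) lam) - 1)
      = expo15 j (sp d lam n) (st d lam n) (sw d lam n) (sf d lam n) := by
  have hq : -1 / (((3 : ℕ) : ℝ) - 1) ≤ lam := by norm_num; linarith
  have hl : lam ≤ 1 := by linarith
  have hp := poisWeight_nonneg hd.le
  have hp1 := tsum_poisWeight hd.le
  have hb : ∀ (k : ℝ) {f : (Fin 3 → ℝ) → ℝ} {B : ℝ}, (∀ y, Simp y → |f y| ≤ B) →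
      ∀ y, Simp y → |k * f y| ≤ |k| * B := fun k f B h y hy => by
    rw [abs_mul]; exact mul_le_mul_of_nonneg_left (h y hy) (abs_nonneg k)
  have hadd : ∀ {f g : (Fin 3 → ℝ) → ℝ} {B B' : ℝ}, (∀ y, Simp y → |f y| ≤ B) →
      (∀ y, Simp y → |g y| ≤ B') → ∀ y, Simp y → |f y + g y| ≤ B + B' :=
    fun hf hg y hy => (abs_add_le _ _).trans (add_le_add (hf y hy) (hg y hy))
  have hc := hb ((lin15 j 0 : ℝ) / 4 * lam ^ 2) (fun y hy => abs_chi_le hy)
  have hm := hb ((lin15 j 1 : ℝ) / 4 * lam ^ 3) (fun y hy => abs_em_le hy)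
  have hs := hb ((lin15 j 2 : ℝ) / 4 * lam ^ 4) (fun y hy => abs_sq_le hy)
  have he := hb ((lin15 j 3 : ℝ) / 4 * lam ^ 5) (fun y hy => abs_ce_le hy)
  have h1' : ∀ y, Simp y → |(fun _ : Fin 3 → ℝ => (1 : ℝ)) y| ≤ 1 := fun y _ => by simp
  have e : mom d lam n (cmon (bet15 j) lam) = mom d lam n fun y => 1
      + (lin15 j 0 : ℝ) / 4 * lam ^ 2 * chi y + (lin15 j 1 : ℝ) / 4 * lam ^ 3 * em y
      + (lin15 j 2 : ℝ) / 4 * lam ^ 4 * chi y ^ 2
      + (lin15 j 3 : ℝ) / 4 * lam ^ 5 * (chi y * em y) := by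
    refine tsum_congr fun x => congrArg _ ?_
    have h := msym15 j (relOr_simp (lik_nonneg (by norm_num) hq hl n x.1 x.2)).2 1 lam
    simp only [one_mul, one_pow, expo15] at h
    rw [cmon]
    unfold yIdx at *
    rw [h]
    ring
  rw [e, mom, mean_add (by norm_num) hq hl hp hp1 n (hadd (hadd (hadd h1' hc) hm) hs) he,
    mean_add (by norm_num) hq hl hp hp1 n (hadd (hadd h1' hc) hm) hs,
    mean_add (by norm_num) hq hl hp hp1 n (hadd h1' hc) hm,
    mean_add (by norm_num) hq hl hp hp1 n h1' hc,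
    mean_const (by norm_num) hq hl hp hp1, mean_smul, mean_smul, mean_smul, mean_smul]
  simp only [expo15, sp, st, sw, sf, mom]
  ring

theorem tgt_succ_le {m : Maj} {al : ℤ} (hal : |(al : ℝ)| ≤ 10 ^ 6) {fuel : ℕ}
    (hok : m.ok al 55000 fuel = true) (n : ℕ) :
    mom d lam (n + 1) chi + (al : ℝ) / 10 ^ 6 * mom d lam (n + 1) em
      + 55000 / 10 ^ 6 * (mom d lam (n + 1) fun y => chi y ^ 2)
      ≤ (m.terms.map fun T => (T.n : ℝ) / 10 ^ 6 * Real.exp
          (T.expo (sp d lam n) (st d lam n) (sw d lam n) (sf d lam n))).sum := by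
  have hq : -1 / (((3 : ℕ) : ℝ) - 1) ≤ lam := by norm_num; linarith
  have hl : lam ≤ 1 := by linarith
  have hp := poisWeight_nonneg hd.le
  have hp1 := tsum_poisWeight hd.le
  have hg : ∀ y, Simp y → 0 ≤ tgt al 55000 y := by
    intro y hy
    have h2 : |(al : ℝ) / 10 ^ 6 * em y| ≤ chi y := by
      rw [abs_mul]
      refine (mul_le_of_le_one_left (abs_nonneg _) ?_).trans (chi_le_two hy).2
      rw [abs_div, div_le_one (by norm_num)]
      simpa using hal
    have := (abs_le.1 h2).1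
    unfold tgt
    push_cast
    nlinarith [sq_nonneg (chi y)]
  have h := mean_succ_le_pois (by norm_num) hq hl hd.le m.vec bet15 hg (majorant_le hok) n
  have hb : ∀ (k : ℝ) {f : (Fin 3 → ℝ) → ℝ} {B : ℝ}, (∀ y, Simp y → |f y| ≤ B) →
      ∀ y, Simp y → |k * f y| ≤ |k| * B := fun k f B h y hy => by
    rw [abs_mul]; exact mul_le_mul_of_nonneg_left (h y hy) (abs_nonneg k)
  have h2 : ∀ y, Simp y → |chi y + (al : ℝ) / 10 ^ 6 * em y| ≤ 2 + |(al : ℝ) / 10 ^ 6| * 2 :=
    fun y hy => (abs_add_le _ _).trans (add_le_add (abs_chi_le hy)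
      (hb _ (fun y hy => abs_em_le hy) y hy))
  have e : mom d lam (n + 1) chi + (al : ℝ) / 10 ^ 6 * mom d lam (n + 1) em
      + 55000 / 10 ^ 6 * (mom d lam (n + 1) fun y => chi y ^ 2)
      = mean 3 lam (poisWeight d) (n + 1) (tgt al 55000) := by
    have e1 := mean_add (by norm_num) hq hl hp hp1 (n + 1) h2
      (hb (55000 / 10 ^ 6 : ℝ) fun y hy => abs_sq_le hy)
    have e2 := mean_add (by norm_num) hq hl hp hp1 (n + 1) (fun y hy => abs_chi_le hy)
      (hb ((al : ℝ) / 10 ^ 6) fun y hy => abs_em_le hy)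
    rw [e2, mean_smul, mean_smul] at e1
    have e3 : tgt al 55000 = fun y : Fin 3 → ℝ =>
        chi y + (al : ℝ) / 10 ^ 6 * em y + 55000 / 10 ^ 6 * chi y ^ 2 := by
      funext y; unfold tgt; push_cast; rfl
    rw [e3, e1]
  rw [e]
  refine h.trans_eq ?_
  calc (∑ j, m.vec j * Real.exp (d * (mean 3 lam (poisWeight d) n (cmon (bet15 j) lam) - 1)))
      = ∑ j, m.vec j * Real.exp
          (expo15 j (sp d lam n) (st d lam n) (sw d lam n) (sf d lam n)) :=
        Finset.sum_congr rfl fun j _ => by rw [← cmon_mean15 hd h0 h1 n j]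
    _ = _ := by
        simp [Maj.terms, Fin.sum_univ_succ, Maj.vec, expo15, lin15, Term.expo]
        ring

/-- One generation inside a slab. -/
theorem slab_step (hks : d * lam ^ 2 ≤ 1) {mU mD : Maj} {lUP lUN lDP lDN : List ℕ} {lo hi : ℤ}
    (hlo : 0 < lo) (hlh : lo < hi) (okU : mU.ok 90000 55000 32 = true)
    (okD : mD.ok (-60000) 55000 32 = true)
    (UP : halfOk mU.terms 12 2 1 106 117 lo hi lUP = true)
    (UN : halfOk mU.terms (-18) 2 (-1) 109 120 lo hi lUN = true)
    (DP : halfOk mD.terms 12 2 1 106 117 lo hi lDP = true)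
    (DN : halfOk mD.terms (-18) 2 (-1) 109 120 lo hi lDN = true) (n : ℕ)
    (hv : (lo : ℝ) ≤ 1000 * wpot (sp d lam n) (st d lam n) (sw d lam n))
    (hv' : 1000 * wpot (sp d lam n) (st d lam n) (sw d lam n) ≤ (hi : ℝ)) :
    wpot (sp d lam (n + 1)) (st d lam (n + 1)) (sw d lam (n + 1)) + 2 / 10 ^ 6
      ≤ wpot (sp d lam n) (st d lam n) (sw d lam n) := by
  obtain ⟨-, ht, hw0, hw, hf⟩ := domain hd h0 h1 n
  set p := sp d lam n
  set t := st d lam n
  set w := sw d lam n
  set f := sf d lam n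
  obtain ⟨t1, t2⟩ := abs_le.1 ht
  have key : ∀ {m : Maj} {al : ℤ}, |(al : ℝ)| ≤ 10 ^ 6 → m.ok al 55000 32 = true →
      (∀ kt : ℤ, (0 ≤ t ∧ kt = 12) ∨ (t ≤ 0 ∧ kt = -18) → excess m.terms kt 22 2 p t w f ≤ 0) →
      mom d lam (n + 1) chi + (al : ℝ) / 10 ^ 6 * mom d lam (n + 1) em
        + 55000 / 10 ^ 6 * (mom d lam (n + 1) fun y => chi y ^ 2) + 2 / 10 ^ 6 ≤ wpot p t w := by
    intro m al hal hm hx
    have hg := tgt_succ_le hd h0 h1 hal hm n
    rcases le_total 0 t with h | h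
    · have := hx 12 (Or.inl ⟨h, rfl⟩)
      have e : max (-18 * t) (12 * t) = 12 * t := max_eq_right (by linarith)
      unfold excess at this
      unfold wpot
      rw [e]
      push_cast at this
      linarith
    · have := hx (-18) (Or.inr ⟨h, rfl⟩)
      have e : max (-18 * t) (12 * t) = -18 * t := max_eq_left (by linarith)
      unfold excess at this
      unfold wpot
      rw [e]
      push_cast at this
      linarith
  have hv1 : ∀ kt : ℤ, (0 ≤ t ∧ kt = 12) ∨ (t ≤ 0 ∧ kt = -18) →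
      1000 * p + 10 * (kt : ℝ) * t + 220 * w = 1000 * wpot p t w := by
    rintro kt (⟨h, rfl⟩ | ⟨h, rfl⟩)
    · unfold wpot; rw [max_eq_right (by linarith)]; push_cast; ring
    · unfold wpot; rw [max_eq_left (by linarith)]; push_cast; ring
  have both : ∀ {m : Maj} {lP lN : List ℕ}, halfOk m.terms 12 2 1 106 117 lo hi lP = true →
      halfOk m.terms (-18) 2 (-1) 109 120 lo hi lN = true → ∀ kt : ℤ,
      (0 ≤ t ∧ kt = 12) ∨ (t ≤ 0 ∧ kt = -18) → excess m.terms kt 22 2 p t w f ≤ 0 := by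
    intro m lP lN hP hN kt hkt
    have e := hv1 kt hkt
    rcases hkt with ⟨h, rfl⟩ | ⟨h, rfl⟩
    · exact half_excess hP (Or.inl rfl) (by norm_num) (by norm_num) (by norm_num) hlo hlh
        (by push_cast; linarith) (by push_cast; linarith) hw0 hw hf (by linarith) (by linarith)
    · exact half_excess hN (Or.inr rfl) (by norm_num) (by norm_num) (by norm_num) hlo hlh
        (by push_cast; linarith) (by push_cast; linarith) hw0 hw hf (by linarith) (by linarith)
  have gU := key (by norm_num) okU (both UP UN)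
  have gD := key (by norm_num) okD (both DP DN)
  set X := mom d lam (n + 1) chi with hX
  set E := mom d lam (n + 1) em with hE
  set W := mom d lam (n + 1) fun y => chi y ^ 2 with hW
  have hX0 : 0 ≤ X := mom_nonneg hd h0 h1 (n + 1) fun y _ => chi3_nonneg y
  have hW0 : 0 ≤ W := mom_nonneg hd h0 h1 (n + 1) fun y _ => sq_nonneg _
  set θ := d * lam ^ 2 with hθ
  have hθ0 : 0 ≤ θ := mul_nonneg hd.le (sq_nonneg lam)
  have l4 : lam ^ 2 ≤ 1 / 4 := by nlinarith
  have s1 : θ * X ≤ X := mul_le_of_le_one_left hX0 hks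
  have s2 : θ * (lam ^ 2 * W) ≤ W / 4 :=
    (mul_le_of_le_one_left (mul_nonneg (sq_nonneg lam) hW0) hks).trans
      (by linarith [mul_le_mul_of_nonneg_right l4 hW0])
  have hm : θ * -lam ≤ 1 / 2 := (mul_le_of_le_one_left (by linarith) hks).trans (by linarith)
  have hm0 : 0 ≤ θ * -lam := mul_nonneg hθ0 (by linarith)
  have e1 : sp d lam (n + 1) = θ * X := rfl
  have e2 : st d lam (n + 1) = θ * lam * E := by simp only [st, hθ, hE]; ring
  have e3 : sw d lam (n + 1) = θ * (lam ^ 2 * W) := by simp only [sw, hθ, hW]; ring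
  push_cast at gU gD
  rw [e1, e2, e3]
  unfold wpot at gU gD ⊢
  rcases le_total 0 E with hE0 | hE0
  · have : max (-18 * (θ * lam * E)) (12 * (θ * lam * E)) ≤ 9 * E := max_le
      (by linarith [mul_le_mul_of_nonneg_right hm hE0])
      (by linarith [mul_nonneg hm0 hE0])
    linarith
  · have : max (-18 * (θ * lam * E)) (12 * (θ * lam * E)) ≤ -6 * E := max_le
      (by linarith [mul_nonneg hm0 (neg_nonneg.2 hE0)])
      (by linarith [mul_le_mul_of_nonneg_right hm (neg_nonneg.2 hE0)])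
    linarith

/-- One generation anywhere on the range of the potential. -/
theorem wpot_succ (hks : d * lam ^ 2 ≤ 1) (n : ℕ)
    (hv : 87 / 1000 ≤ wpot (sp d lam n) (st d lam n) (sw d lam n))
    (hv' : wpot (sp d lam n) (st d lam n) (sw d lam n) ≤ 342 / 1000) :
    wpot (sp d lam (n + 1)) (st d lam (n + 1)) (sw d lam (n + 1)) + 2 / 10 ^ 6
      ≤ wpot (sp d lam n) (st d lam n) (sw d lam n) := by
  rcases le_total (wpot (sp d lam n) (st d lam n) (sw d lam n)) (130 / 1000) with ha | ha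
  · exact slab_step hd h0 h1 hks (by norm_num) (by norm_num) maj0U_ok maj0D_ok tree0UP_ok
      tree0UN_ok tree0DP_ok tree0DN_ok n (by push_cast; linarith) (by push_cast; linarith)
  rcases le_total (wpot (sp d lam n) (st d lam n) (sw d lam n)) (250 / 1000) with hb | hb
  · exact slab_step hd h0 h1 hks (by norm_num) (by norm_num) maj1U_ok maj1D_ok tree1UP_ok
      tree1UN_ok tree1DP_ok tree1DN_ok n (by push_cast; linarith) (by push_cast; linarith)
  · exact slab_step hd h0 h1 hks (by norm_num) (by norm_num) maj2U_ok maj2D_ok tree2UP_ok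
      tree2UN_ok tree2DP_ok tree2DN_ok n (by push_cast; linarith) (by push_cast; linarith)

/-- The scaled magnetisation falls from `57 / 200` to `87 / 1000`. -/
theorem exists_sp_le (hks : d * lam ^ 2 ≤ 1) {n0 : ℕ} (hn0 : sp d lam n0 ≤ 57 / 200) :
    ∃ m, n0 ≤ m ∧ sp d lam m ≤ 87 / 1000 := by
  by_contra hno
  push Not at hno
  have hlow : ∀ k, 87 / 1000 ≤ wpot (sp d lam (n0 + k)) (st d lam (n0 + k)) (sw d lam (n0 + k)) := by
    intro k
    obtain ⟨-, -, hw0, -, -⟩ := domain hd h0 h1 (n0 + k)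
    have := hno (n0 + k) (Nat.le_add_right n0 k)
    have hmax : 0 ≤ max (-18 * st d lam (n0 + k)) (12 * st d lam (n0 + k)) := by
      rcases le_total 0 (st d lam (n0 + k)) with h | h
      · exact le_max_of_le_right (by linarith)
      · exact le_max_of_le_left (by linarith)
    unfold wpot
    linarith
  have h342 : wpot (sp d lam n0) (st d lam n0) (sw d lam n0) ≤ 342 / 1000 := by
    obtain ⟨-, ht, -, hw, -⟩ := domain hd h0 h1 n0
    obtain ⟨t1, t2⟩ := abs_le.1 ht
    have : max (-18 * st d lam n0) (12 * st d lam n0) ≤ 9 * sp d lam n0 :=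
      max_le (by linarith) (by linarith)
    unfold wpot
    linarith
  have hdec : ∀ k : ℕ, wpot (sp d lam (n0 + k)) (st d lam (n0 + k)) (sw d lam (n0 + k))
      ≤ 342 / 1000 - 2 / 10 ^ 6 * k := by
    intro k
    induction k with
    | zero => simpa using h342
    | succ k ih =>
      have hk : (0 : ℝ) ≤ 2 / 10 ^ 6 * k := by positivity
      have := wpot_succ hd h0 h1 hks (n0 + k) (hlow k) (by linarith)
      rw [← Nat.add_assoc]
      push_cast
      linarith
  have h1' := hlow 200000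
  have h2' := hdec 200000
  push_cast at h2'
  linarith

end

/-- A magnetisation of at most `57 / 200` at one depth comes down to `87 / 1000` at another. -/
theorem small_of_moderate {d lam : ℝ} (hd : 0 < d) (h0 : -(1 / 2) ≤ lam) (h1 : lam ≤ 0)
    (hks : d * lam ^ 2 = 1)
    (h : ∃ n, gwE (poisWeight d) n (fun t => ENNReal.ofReal (xTree 3 lam n t))
      ≤ ENNReal.ofReal (57 / 200)) :
    ∃ n, gwE (poisWeight d) n (fun t => ENNReal.ofReal (xTree 3 lam n t))
      ≤ ENNReal.ofReal (87 / 1000) := by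
  have hq : -1 / (((3 : ℕ) : ℝ) - 1) ≤ lam := by norm_num; linarith
  have hl : lam ≤ 1 := by linarith
  have hp := poisWeight_nonneg hd.le
  have hp1 := tsum_poisWeight hd.le
  have hx : ∀ n, gwE (poisWeight d) n (fun t => ENNReal.ofReal (xTree 3 lam n t))
      = ENNReal.ofReal (mom d lam n chi) := by
    intro n
    show gwE (poisWeight d) n (fun t => ENNReal.ofReal (ev (lik (q := 3) lam n t) chi)) = _
    rw [gwE_ev_eq (by norm_num) hq hl hp n fun y _ => chi3_nonneg y, mom, mean,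
      ENNReal.ofReal_tsum_of_nonneg (fun x => mul_nonneg (wIdx_nonneg (by norm_num) hq hl hp n x)
        (chi3_nonneg _)) (summable_mean (by norm_num) hq hl hp hp1 n fun y hy => abs_chi_le hy)]
  have hsp : ∀ n, sp d lam n = mom d lam n chi := fun n => by rw [sp, hks, one_mul]
  obtain ⟨n0, hn0⟩ := h
  rw [hx, ENNReal.ofReal_le_ofReal_iff (by norm_num), ← hsp] at hn0
  obtain ⟨m, -, hm⟩ := exists_sp_le hd h0 h1 hks.le hn0
  refine ⟨m, ?_⟩
  rw [hx, ← hsp]
  exact ENNReal.ofReal_le_ofReal hm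

/-- Nonreconstruction once the magnetisation is at most `57 / 200` at a single depth. -/
theorem aPois_zero_of_moderate {d lam : ℝ} (hd : 0 < d) (h0 : -(1 / 2) ≤ lam) (h1 : lam ≤ 0)
    (hks : d * lam ^ 2 = 1)
    (h : ∃ n, gwE (poisWeight d) n (fun t => ENNReal.ofReal (xTree 3 lam n t))
      ≤ ENNReal.ofReal (57 / 200)) :
    Tendsto (fun n => aGW 3 (poisWeight d) lam n) atTop (𝓝 0) :=
  aPois_zero_of_small hd h0 h1 hks.le (small_of_moderate hd h0 h1 hks h)

end Vale.P154.PS.Wide
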