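import Vale.Agent.P154.Pois.Wide.Data

/-!
# Kernel checks
-/

noncomputable section

namespace Vale.P154.PS.Wide

theorem maj0U_ok : maj0U.ok 90000 55000 32 = true := by
  decide +kernel

theorem maj0D_ok : maj0D.ok (-60000) 55000 32 = true := by
  decide +kernel

theorem maj1U_ok : maj1U.ok 90000 55000 32 = true := by
  decide +kernel

theorem maj1D_ok : maj1D.ok (-60000) 55000 32 = true := by
  decide +kernel

theorem maj2U_ok : maj2U.ok 90000 55000 32 = true := by
  decide +kernel

theorem maj2D_ok : maj2D.ok (-60000) 55000 32 = true := by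
  decide +kernel

end Vale.P154.PS.Wide
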