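import Mathlib

/-!
# Nonnegativity of forms of bidegree five on a product of two quadrants

A form is given by its coefficients in `x ^ i y ^ (5 - i) r ^ k s ^ (5 - k)`. Nonnegative coefficients
suffice; otherwise the inner pair is cut at `r = s` and the roles of the two pairs are exchanged.
-/

noncomputable section

namespace Vale.P154.PS.Wide

/-- Six coefficients. -/
structure S6 (α : Type) where
  a0 : α
  a1 : α
  a2 : α
  a3 : α
  a4 : α
  a5 : α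

/-- The form of degree five. -/
def S6.ev (p : S6 ℤ) (x y : ℝ) : ℝ :=
  p.a0 * y ^ 5 + p.a1 * (x * y ^ 4) + p.a2 * (x ^ 2 * y ^ 3) + p.a3 * (x ^ 3 * y ^ 2)
    + p.a4 * (x ^ 4 * y) + p.a5 * x ^ 5

/-- The form after `y := 2 y + x`. -/
def S6.low (p : S6 ℤ) : S6 ℤ :=
  ⟨32 * p.a0, 80 * p.a0 + 16 * p.a1,
    80 * p.a0 + 32 * p.a1 + 8 * p.a2, 40 * p.a0 + 24 * p.a1 + 12 * p.a2 + 4 * p.a3,
    10 * p.a0 + 8 * p.a1 + 6 * p.a2 + 4 * p.a3 + 2 * p.a4,
    p.a0 + p.a1 + p.a2 + p.a3 + p.a4 + p.a5⟩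

/-- The form after `x := 2 x + y`. -/
def S6.high (p : S6 ℤ) : S6 ℤ :=
  ⟨p.a0 + p.a1 + p.a2 + p.a3 + p.a4 + p.a5,
    2 * p.a1 + 4 * p.a2 + 6 * p.a3 + 8 * p.a4 + 10 * p.a5, 4 * p.a2 + 12 * p.a3 + 24 * p.a4 + 40 * p.a5,
    8 * p.a3 + 32 * p.a4 + 80 * p.a5, 16 * p.a4 + 80 * p.a5, 32 * p.a5⟩

theorem S6.ev_low (p : S6 ℤ) (x y : ℝ) : p.low.ev x y = p.ev x (2 * y + x) := by
  simp only [S6.ev, S6.low]; push_cast; ring

theorem S6.ev_high (p : S6 ℤ) (x y : ℝ) : p.high.ev x y = p.ev (2 * x + y) y := by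
  simp only [S6.ev, S6.high]; push_cast; ring

/-- Componentwise map. -/
def S6.map {α β : Type} (f : α → β) (p : S6 α) : S6 β :=
  ⟨f p.a0, f p.a1, f p.a2, f p.a3, f p.a4, f p.a5⟩

/-- The biform. -/
def ev2 (M : S6 (S6 ℤ)) (x y r s : ℝ) : ℝ :=
  M.a0.ev r s * y ^ 5 + M.a1.ev r s * (x * y ^ 4) + M.a2.ev r s * (x ^ 2 * y ^ 3)
    + M.a3.ev r s * (x ^ 3 * y ^ 2) + M.a4.ev r s * (x ^ 4 * y) + M.a5.ev r s * x ^ 5

/-- The transposed matrix. -/
def transp (M : S6 (S6 ℤ)) : S6 (S6 ℤ) :=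
  ⟨M.map (·.a0), M.map (·.a1), M.map (·.a2), M.map (·.a3), M.map (·.a4), M.map (·.a5)⟩

theorem ev2_transp (M : S6 (S6 ℤ)) (x y r s : ℝ) : ev2 (transp M) r s x y = ev2 M x y r s := by
  simp only [ev2, transp, S6.map, S6.ev]; ring

/-- All coefficients of a row are nonnegative. -/
def S6.pos (p : S6 ℤ) : Bool :=
  decide (0 ≤ p.a0) && decide (0 ≤ p.a1) && decide (0 ≤ p.a2) && decide (0 ≤ p.a3) &&
    decide (0 ≤ p.a4) && decide (0 ≤ p.a5)

/-- All coefficients are nonnegative. -/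
def pos2 (M : S6 (S6 ℤ)) : Bool :=
  M.a0.pos && M.a1.pos && M.a2.pos && M.a3.pos && M.a4.pos && M.a5.pos

/-- Pass an integer on after evaluating it: the kernel reduces lazily and would copy the unevaluated
terms otherwise. -/
def force {β : Type} (a : ℤ) (k : ℤ → β) : β :=
  match a with
  | Int.ofNat 0 => k (Int.ofNat 0)
  | Int.ofNat (n + 1) => k (Int.ofNat (n + 1))
  | Int.negSucc 0 => k (Int.negSucc 0)
  | Int.negSucc (n + 1) => k (Int.negSucc (n + 1))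

theorem force_eq {β : Type} (a : ℤ) (k : ℤ → β) : force a k = k a := by
  rcases a with (_ | n) | (_ | n) <;> rfl

/-- Evaluate a row. -/
def S6.forceRow (p : S6 ℤ) (k : S6 ℤ → Bool) : Bool :=
  force p.a0 fun a0 => force p.a1 fun a1 => force p.a2 fun a2 => force p.a3 fun a3 =>
    force p.a4 fun a4 => force p.a5 fun a5 => k ⟨a0, a1, a2, a3, a4, a5⟩

theorem S6.forceRow_eq (p : S6 ℤ) (k : S6 ℤ → Bool) : p.forceRow k = k p := by
  simp only [S6.forceRow, force_eq]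

/-- Evaluate a matrix. -/
def force2 (M : S6 (S6 ℤ)) (k : S6 (S6 ℤ) → Bool) : Bool :=
  M.a0.forceRow fun a0 => M.a1.forceRow fun a1 => M.a2.forceRow fun a2 => M.a3.forceRow fun a3 =>
    M.a4.forceRow fun a4 => M.a5.forceRow fun a5 => k ⟨a0, a1, a2, a3, a4, a5⟩

theorem force2_eq (M : S6 (S6 ℤ)) (k : S6 (S6 ℤ) → Bool) : force2 M k = k M := by
  simp only [force2, S6.forceRow_eq]

/-- Subdivide until all coefficients are nonnegative. -/
def quadOk : ℕ → S6 (S6 ℤ) → Bool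
  | 0, M => pos2 M
  | fuel + 1, M => force2 M fun M => pos2 M ||
      (quadOk fuel (transp (M.map S6.low)) && quadOk fuel (transp (M.map S6.high)))

theorem S6.ev_nonneg {p : S6 ℤ} (h : p.pos = true) {x y : ℝ} (hx : 0 ≤ x) (hy : 0 ≤ y) :
    0 ≤ p.ev x y := by
  simp only [S6.pos, Bool.and_eq_true, decide_eq_true_eq] at h
  obtain ⟨⟨⟨⟨⟨h0, h1⟩, h2⟩, h3⟩, h4⟩, h5⟩ := h
  have g0 : (0 : ℝ) ≤ p.a0 := by exact_mod_cast h0
  have g1 : (0 : ℝ) ≤ p.a1 := by exact_mod_cast h1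
  have g2 : (0 : ℝ) ≤ p.a2 := by exact_mod_cast h2
  have g3 : (0 : ℝ) ≤ p.a3 := by exact_mod_cast h3
  have g4 : (0 : ℝ) ≤ p.a4 := by exact_mod_cast h4
  have g5 : (0 : ℝ) ≤ p.a5 := by exact_mod_cast h5
  unfold S6.ev
  positivity

theorem ev2_nonneg_of_pos {M : S6 (S6 ℤ)} (h : pos2 M = true) {x y r s : ℝ} (hx : 0 ≤ x)
    (hy : 0 ≤ y) (hr : 0 ≤ r) (hs : 0 ≤ s) : 0 ≤ ev2 M x y r s := by
  simp only [pos2, Bool.and_eq_true] at h
  obtain ⟨⟨⟨⟨⟨h0, h1⟩, h2⟩, h3⟩, h4⟩, h5⟩ := h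
  have g0 := S6.ev_nonneg h0 hr hs
  have g1 := S6.ev_nonneg h1 hr hs
  have g2 := S6.ev_nonneg h2 hr hs
  have g3 := S6.ev_nonneg h3 hr hs
  have g4 := S6.ev_nonneg h4 hr hs
  have g5 := S6.ev_nonneg h5 hr hs
  unfold ev2
  positivity

theorem ev2_nonneg : ∀ (fuel : ℕ) {M : S6 (S6 ℤ)}, quadOk fuel M = true →
    ∀ {x y r s : ℝ}, 0 ≤ x → 0 ≤ y → 0 ≤ r → 0 ≤ s → 0 ≤ ev2 M x y r s := by
  intro fuel
  induction fuel with
  | zero => exact fun h => ev2_nonneg_of_pos h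
  | succ fuel ih =>
    intro M h x y r s hx hy hr hs
    simp only [quadOk, force2_eq, Bool.or_eq_true, Bool.and_eq_true] at h
    rcases h with h | ⟨hl, hh⟩
    · exact ev2_nonneg_of_pos h hx hy hr hs
    rcases le_total r s with hrs | hrs
    · have := ih hl hr (show 0 ≤ (s - r) / 2 by linarith) hx hy
      rw [ev2_transp] at this
      simp only [ev2, S6.map, S6.ev_low] at this
      rw [show 2 * ((s - r) / 2) + r = s by ring] at this
      exact this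
    · have := ih hh (show 0 ≤ (r - s) / 2 by linarith) hs hx hy
      rw [ev2_transp] at this
      simp only [ev2, S6.map, S6.ev_high] at this
      rw [show 2 * ((r - s) / 2) + s = r by ring] at this
      exact this

end Vale.P154.PS.Wide
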