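import Vale.Agent.P154.Pois.Wide.Simplex

/-!
# From tetrahedra to a slab of the potential on one sign of the third moment
-/

noncomputable section

namespace Vale.P154.PS.Wide

/-- A vertex on the level `v`. -/
def Pt.scale (v : ℤ) (X : Pt) : Pt := ⟨v * X.P, v * X.T, v * X.W⟩

/-- The first tetrahedron of a prism. -/
def tet1 (lo hi : ℤ) (U V W : Pt) : Quad := ⟨U.scale lo, V.scale lo, W.scale lo, U.scale hi⟩

/-- The second tetrahedron of a prism. -/
def tet2 (lo hi : ℤ) (U V W : Pt) : Quad := ⟨V.scale lo, W.scale lo, U.scale hi, V.scale hi⟩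

/-- The third tetrahedron of a prism. -/
def tet3 (lo hi : ℤ) (U V W : Pt) : Quad := ⟨W.scale lo, U.scale hi, V.scale hi, W.scale hi⟩

/-- Follow the list through several tetrahedra. -/
def walkAll (L : List Term) (kt kw dl Q : ℤ) : List Quad → List ℕ → Option (List ℕ)
  | [], l => some l
  | U :: rest, l => match walk L kt kw dl 64 Q U l with
    | none => none
    | some r => walkAll L kt kw dl Q rest r

theorem walkAll_holds {L : List Term} {kt kw dl Q : ℤ} (hQ : 0 < Q) :
    ∀ (Us : List Quad) (l r : List ℕ), walkAll L kt kw dl Q Us l = some r →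
      ∀ U ∈ Us, Holds L kt kw dl Q U := by
  intro Us
  induction Us with
  | nil => intro _ _ _ U hU; simp at hU
  | cons V rest ih =>
    intro l r h U hU
    simp only [walkAll] at h
    split at h
    · simp at h
    next r' hr =>
      rcases List.mem_cons.1 hU with rfl | hU
      · exact holds_of_walk 64 Q U l r' hQ hr
      · exact ih r' r h U hU

/-- The common denominator of the roots. -/
def rootQ (D1 D2 : ℤ) : ℤ := 2000 * (100 * D1 * D2 * 111)

/-- The corner `|t| = 0, w = 0` on the unit level. -/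
def corner0 (D1 D2 : ℤ) : Pt := ⟨200 * (D1 * D2 * 111), 0, 0⟩

/-- The corner `|t| = p / 2, w = 0` on the unit level. -/
def corner1 (h D2 : ℤ) : Pt := ⟨200 * (100 * D2 * 111), h * (100 * (100 * D2 * 111)), 0⟩

/-- The corner `|t| = p / 2, w = p / 2` on the unit level. -/
def corner2 (h D1 : ℤ) : Pt :=
  ⟨200 * (100 * D1 * 111), h * (100 * (100 * D1 * 111)), 100 * (100 * D1 * 111)⟩

/-- The corner `|t| = 0, w = p / 2` on the unit level. -/
def corner3 (D1 D2 : ℤ) : Pt := ⟨200 * (100 * D1 * D2), 0, 100 * (100 * D1 * D2)⟩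

/-- The six tetrahedra of one half of a slab. -/
def roots (h D1 D2 lo hi : ℤ) : List Quad :=
  [tet1 lo hi (corner0 D1 D2) (corner1 h D2) (corner2 h D1),
    tet2 lo hi (corner0 D1 D2) (corner1 h D2) (corner2 h D1),
    tet3 lo hi (corner0 D1 D2) (corner1 h D2) (corner2 h D1),
    tet1 lo hi (corner0 D1 D2) (corner2 h D1) (corner3 D1 D2),
    tet2 lo hi (corner0 D1 D2) (corner2 h D1) (corner3 D1 D2),
    tet3 lo hi (corner0 D1 D2) (corner2 h D1) (corner3 D1 D2)]

/-- The check of one half of a slab. -/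
def halfOk (L : List Term) (kt dl h D1 D2 lo hi : ℤ) (l : List ℕ) : Bool :=
  match walkAll L kt 22 dl (rootQ D1 D2) (roots h D1 D2 lo hi) l with
  | some [] => true
  | _ => false

theorem prism {L : List Term} {kt kw dl Q lo hi : ℤ} {U V W : Pt} (hQ : 0 < Q) (hlo : 0 < lo)
    (hlh : lo < hi) (h1 : Holds L kt kw dl Q (tet1 lo hi U V W))
    (h2 : Holds L kt kw dl Q (tet2 lo hi U V W)) (h3 : Holds L kt kw dl Q (tet3 lo hi U V W))
    {x y z g : ℝ} (hx : 0 ≤ x) (hy : 0 ≤ y) (hz : 0 ≤ z) (hvl : (lo : ℝ) ≤ x + y + z)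
    (hvh : x + y + z ≤ (hi : ℝ)) (hg : |g| ≤ 1 / 2) :
    excess L kt kw dl ((x * U.P + y * V.P + z * W.P) / Q) ((x * U.T + y * V.T + z * W.T) / Q)
      ((x * U.W + y * V.W + z * W.W) / Q) (g * ((x * U.W + y * V.W + z * W.W) / Q)) ≤ 0 := by
  have hQ' : (0 : ℝ) < Q := by exact_mod_cast hQ
  have hl : (0 : ℝ) < lo := by exact_mod_cast hlo
  have hlh' : (lo : ℝ) < hi := by exact_mod_cast hlh
  have hh : (0 : ℝ) < hi := hl.trans hlh'
  set θ := (x + y + z - lo) / ((hi : ℝ) - lo) with hθ
  have hθ0 : 0 ≤ θ := div_nonneg (by linarith) (by linarith)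
  have hθv : θ * ((hi : ℝ) - lo) = x + y + z - lo := div_mul_cancel₀ _ (by linarith)
  have hθh : hi * θ ≤ x + y + z := by
    nlinarith [mul_nonneg hl.le (sub_nonneg.2 hvh)]
  rcases le_total (hi * θ) x with ha | ha
  · convert h1 ((x - hi * θ) / lo) (y / lo) (z / lo) θ g (div_nonneg (by linarith) hl.le)
      (div_nonneg hy hl.le) (div_nonneg hz hl.le) hθ0 ?_ hg using 2
    all_goals first
      | (simp only [tet1, Pt.scale]; push_cast; field_simp; ring)
      | (field_simp; linarith)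
  rcases le_total (hi * θ) (x + y) with hb | hb
  · convert h2 ((x + y - hi * θ) / lo) (z / lo) (x / hi) (θ - x / hi) g
      (div_nonneg (by linarith) hl.le) (div_nonneg hz hl.le) (div_nonneg hx hh.le)
      (sub_nonneg.2 ((div_le_iff₀ hh).2 (by linarith))) ?_ hg using 2
    all_goals first
      | (simp only [tet2, Pt.scale]; push_cast; field_simp; ring)
      | (field_simp; linear_combination (-(hi : ℝ)) * hθv)
  · convert h3 ((x + y + z - hi * θ) / lo) (x / hi) (y / hi) (θ - (x + y) / hi) g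
      (div_nonneg (by linarith) hl.le) (div_nonneg hx hh.le) (div_nonneg hy hh.le)
      (sub_nonneg.2 ((div_le_iff₀ hh).2 (by linarith))) ?_ hg using 2
    all_goals first
      | (simp only [tet3, Pt.scale]; push_cast; field_simp; ring)
      | (field_simp; linear_combination (-(hi : ℝ)) * hθv)

/-- A checked half bounds the excess on the relaxed domain. -/
theorem half_excess {L : List Term} {kt dl h D1 D2 lo hi : ℤ} {l : List ℕ}
    (hk : halfOk L kt dl h D1 D2 lo hi l = true) (hh : h = 1 ∨ h = -1)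
    (hD : 2 * D1 = 200 + h * kt) (hD' : D2 = D1 + 11) (hD0 : 0 < D1) (hlo : 0 < lo)
    (hlh : lo < hi) {p t w f : ℝ} (ht0 : 0 ≤ (h : ℝ) * t) (ht : (h : ℝ) * t ≤ p / 2) (hw : 0 ≤ w)
    (hwp : w ≤ p / 2) (hf : |f| ≤ w / 2) (hv : (lo : ℝ) ≤ 1000 * p + 10 * kt * t + 220 * w)
    (hv' : 1000 * p + 10 * kt * t + 220 * w ≤ (hi : ℝ)) : excess L kt 22 dl p t w f ≤ 0 := by
  have hQ : (0 : ℤ) < rootQ D1 D2 := by
    have : 0 < D2 := by omega
    unfold rootQ; positivity
  have hall : ∀ U ∈ roots h D1 D2 lo hi, Holds L kt 22 dl (rootQ D1 D2) U := by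
    unfold halfOk at hk
    split at hk
    next hr => exact walkAll_holds hQ _ _ _ hr
    next => exact absurd hk (by simp)
  obtain ⟨g, hfg, hg⟩ : ∃ g : ℝ, f = g * w ∧ |g| ≤ 1 / 2 := by
    rcases hw.eq_or_lt with h0 | h0
    · exact ⟨0, by rw [← h0] at hf ⊢; simpa using hf, by norm_num⟩
    · exact ⟨f / w, by field_simp, by rw [abs_div, abs_of_pos h0, div_le_iff₀ h0]; linarith⟩
  subst hfg
  obtain ⟨s, rfl, hs0⟩ : ∃ s : ℝ, t = (h : ℝ) * s ∧ s = (h : ℝ) * t :=
    ⟨(h : ℝ) * t, by rcases hh with rfl | rfl <;> simp, rfl⟩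
  have hh2 : (h : ℝ) * h = 1 := by rcases hh with rfl | rfl <;> norm_num
  have hs : 0 ≤ s := by rw [← mul_assoc, hh2, one_mul] at ht0; exact ht0
  have hsp : s ≤ p / 2 := by rw [← mul_assoc, hh2, one_mul] at ht; exact ht
  have k1 : (kt : ℝ) * h = 2 * D1 - 200 := by
    have : (2 : ℝ) * D1 = 200 + h * kt := by exact_mod_cast hD
    linarith
  have hD1 : (0 : ℝ) < D1 := by exact_mod_cast hD0
  have hD2 : (D2 : ℝ) = D1 + 11 := by exact_mod_cast hD'
  have hvv : 1000 * p + 10 * kt * ((h : ℝ) * s) + 220 * w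
      = 1000 * p + 10 * (2 * D1 - 200) * s + 220 * w := by rw [← k1]; ring
  rw [hvv] at hv hv'
  have hD2p : (0 : ℝ) < D2 := by linarith
  simp only [roots, List.mem_cons, List.not_mem_nil, or_false, forall_eq_or_imp, forall_eq] at hall
  obtain ⟨a1, a2, a3, b1, b2, b3⟩ := hall
  rcases le_total w s with hc | hc
  · have := prism hQ hlo hlh a1 a2 a3 (x := 1000 * (p - 2 * s)) (y := 20 * (s - w) * D1)
      (z := 20 * w * D2) (g := g) (by linarith) (mul_nonneg (by linarith) hD1.le)
      (mul_nonneg (by linarith) hD2p.le) (by rw [hD2]; linarith) (by rw [hD2]; linarith) hg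
    convert this using 2 <;> simp only [corner0, corner1, corner2, rootQ] <;> push_cast <;>
      field_simp <;> ring
  · have := prism hQ hlo hlh b1 b2 b3 (x := 1000 * (p - 2 * w)) (y := 20 * s * D2)
      (z := 2220 * (w - s)) (g := g) (by linarith) (mul_nonneg (by linarith) hD2p.le)
      (by linarith) (by rw [hD2]; linarith) (by rw [hD2]; linarith) hg
    convert this using 2 <;> simp only [corner0, corner2, corner3, rootQ] <;> push_cast <;>
      field_simp <;> ring

end Vale.P154.PS.Wide
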