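import Vale.Agent.P154.Pois.Wide.Majorant
import Vale.Agent.P154.Pois.Wide.Region

/-!
# The six majorants and their bisection lists
-/

noncomputable section

namespace Vale.P154.PS.Wide

/-- Coefficients on slab `87`..`130` thousandths, target `+`. -/
def maj0U : Maj :=
  ⟨469705, 0, 1360119, -4459529, -287985, 3003985, 2123769, 20289, -681978, -433338, -1658767,
    73466, 92394, 155344, 223032⟩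

/-- Bisections for the nonnegative third moment. -/
def tree0UP : List ℕ := [
    5, 0, 1, 9, 4, 2, 9, 9, 9, 5, 2, 2, 9, 9, 9, 9, 4, 2, 2, 2, 9, 9, 9, 3, 1, 2, 9, 9, 9, 9,
    4, 9, 3, 2, 9, 9, 9, 3, 9, 3, 5, 1, 9, 3, 2, 9, 9, 9, 3, 9, 3, 2, 9, 9, 9, 9, 0, 9, 4, 5,
    1, 9, 3, 9, 9, 3, 9, 3, 9, 9, 9, 4, 4, 1, 2, 9, 9, 4, 9, 3, 9, 9, 5, 9, 4, 9, 9, 4, 2, 2,
    2, 9, 9, 9, 0, 9, 4, 2, 9, 9, 9, 9, 1, 9, 3, 2, 2, 2, 9, 9, 9, 9, 4, 9, 9, 0, 1, 9, 9, 3,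
    1, 2, 9, 9, 9, 9]

/-- Bisections for the nonpositive third moment. -/
def tree0UN : List ℕ := [
    5, 1, 9, 4, 5, 1, 9, 3, 9, 9, 3, 9, 9, 9, 4, 2, 2, 2, 2, 9, 9, 9, 9, 0, 9, 3, 2, 9, 9, 9,
    0, 2, 9, 3, 2, 9, 9, 9, 4, 9, 3, 2, 9, 9, 9, 3, 9, 3, 2, 2, 2, 9, 9, 9, 9, 9, 0, 9, 4, 2,
    2, 2, 9, 9, 9, 9, 9, 4, 1, 9, 5, 1, 2, 9, 9, 4, 9, 9, 4, 9, 4, 9, 9, 4, 2, 2, 2, 2, 9, 9,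
    9, 9, 0, 9, 4, 9, 9, 9, 1, 9, 3, 2, 2, 2, 2, 9, 9, 9, 9, 9, 9, 0, 9, 3, 1, 2, 9, 9, 9, 9]

/-- Coefficients on slab `87`..`130` thousandths, target `-`. -/
def maj0D : Maj :=
  ⟨340975, 469638, 850996, -4618319, -160451, 3819878, 1641562, 9907, -921867, -687085,
    -1305990, 92273, 168693, 134553, 165678⟩

/-- Bisections for the nonnegative third moment. -/
def tree0DP : List ℕ := [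
    5, 9, 9, 3, 9, 9, 0, 9, 9, 4, 9, 9, 1, 9, 9, 9]

/-- Bisections for the nonpositive third moment. -/
def tree0DN : List ℕ := [
    5, 9, 9, 3, 9, 9, 0, 9, 9, 4, 9, 9, 1, 9, 4, 9, 9, 3, 1, 9, 9, 9]

/-- Coefficients on slab `130`..`250` thousandths, target `+`. -/
def maj1U : Maj :=
  ⟨146615, 1643709, 401526, -6908860, -65673, 5221543, 3237688, 3317, -1025142, -777518,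
    -2793959, 80865, 150455, 278200, 407662⟩

/-- Bisections for the nonnegative third moment. -/
def tree1UP : List ℕ := [
    5, 0, 1, 9, 4, 2, 2, 9, 9, 9, 9, 4, 2, 9, 3, 2, 9, 9, 9, 4, 9, 3, 2, 9, 9, 9, 4, 2, 2, 2,
    2, 9, 9, 9, 9, 0, 9, 3, 2, 2, 2, 9, 9, 9, 9, 9, 0, 2, 9, 4, 2, 2, 9, 9, 9, 9, 3, 2, 9, 4,
    2, 2, 9, 9, 9, 9, 4, 9, 4, 2, 9, 9, 9, 3, 2, 9, 4, 9, 9, 3, 2, 2, 2, 2, 9, 9, 9, 9, 9, 4,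
    9, 9, 0, 1, 9, 9, 4, 2, 2, 2, 9, 9, 9, 4, 9, 9, 9, 4, 0, 1, 9, 5, 2, 9, 9, 4, 9, 4, 9, 9,
    9, 4, 2, 2, 2, 2, 2, 9, 9, 9, 9, 9, 0, 9, 3, 2, 2, 2, 9, 9, 9, 9, 9, 3, 1, 9, 4, 9, 9, 5,
    9, 4, 9, 9, 1, 5, 9, 9, 3, 2, 2, 2, 2, 9, 9, 4, 9, 9, 9, 3, 9, 9, 4, 2, 2, 9, 4, 9, 9, 9,
    3, 9, 9, 0, 1, 2, 2, 9, 9, 3, 1, 1, 2, 9, 9, 9, 9, 9, 4, 2, 9, 9, 3, 1, 1, 2, 9, 9, 9, 9,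
    9, 3, 1, 2, 2, 9, 3, 9, 9, 4, 2, 2, 2, 9, 9, 9, 9, 3, 9, 9, 5, 2, 9, 9, 3, 2, 2, 9, 9, 9,
    9, 4, 2, 9, 4, 9, 9, 3, 1, 2, 2, 9, 9, 9, 9, 4, 9, 9]

/-- Bisections for the nonpositive third moment. -/
def tree1UN : List ℕ := [
    5, 0, 1, 9, 4, 2, 2, 2, 9, 9, 9, 9, 9, 3, 9, 4, 2, 2, 9, 9, 9, 9, 4, 2, 2, 2, 2, 9, 9, 9,
    9, 3, 1, 2, 2, 2, 9, 9, 9, 9, 9, 9, 0, 2, 9, 4, 2, 2, 2, 9, 9, 9, 9, 9, 5, 9, 4, 2, 2, 9,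
    9, 9, 9, 3, 2, 9, 4, 2, 9, 9, 9, 3, 2, 2, 2, 9, 9, 9, 4, 2, 9, 9, 9, 4, 9, 4, 2, 9, 9, 9,
    0, 1, 9, 3, 9, 9, 4, 2, 2, 2, 9, 9, 9, 4, 9, 9, 5, 9, 9, 4, 0, 1, 9, 5, 2, 9, 3, 2, 9, 9,
    9, 4, 9, 3, 2, 9, 9, 9, 4, 2, 9, 4, 1, 9, 9, 9, 3, 1, 2, 9, 4, 9, 9, 5, 9, 4, 9, 9, 4, 9,
    3, 2, 9, 9, 9, 4, 2, 2, 2, 2, 9, 9, 9, 9, 0, 9, 4, 2, 2, 2, 9, 9, 9, 9, 9, 3, 1, 1, 1, 2,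
    9, 4, 9, 9, 5, 9, 9, 4, 9, 9, 4, 9, 4, 9, 9, 4, 9, 4, 1, 9, 9, 9, 1, 5, 5, 9, 3, 9, 9, 3,
    2, 9, 9, 4, 9, 9, 3, 2, 2, 2, 2, 9, 9, 4, 9, 9, 9, 3, 9, 3, 9, 9, 4, 2, 2, 9, 4, 9, 9, 9,
    3, 9, 3, 9, 9, 0, 1, 2, 2, 9, 4, 9, 9, 5, 2, 9, 4, 2, 2, 9, 9, 9, 9, 5, 9, 3, 2, 2, 9, 9,
    9, 9, 3, 2, 9, 4, 1, 2, 2, 9, 9, 9, 9, 9, 3, 1, 5, 9, 3, 2, 9, 9, 9, 5, 9, 4, 2, 9, 9, 9,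
    4, 9, 3, 2, 2, 9, 9, 9, 9, 3, 1, 2, 2, 9, 9, 5, 2, 9, 4, 2, 9, 9, 9, 4, 2, 9, 9, 4, 2, 9,
    9, 9, 3, 5, 9, 3, 9, 9, 3, 2, 9, 3, 2, 9, 9, 9, 4, 9, 3, 2, 9, 9, 9, 3, 2, 9, 4, 1, 2, 9,
    9, 9, 9, 3, 1, 2, 9, 3, 9, 9, 4, 9, 3, 9, 9, 4, 9, 4, 2, 9, 9, 9]

/-- Coefficients on slab `130`..`250` thousandths, target `-`. -/
def maj1D : Maj :=
  ⟨136323, 1418007, 352338, -5771615, -56684, 4647635, 2035587, 2825, -994483, -766527,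
    -1622416, 86660, 167092, 155804, 210272⟩

/-- Bisections for the nonnegative third moment. -/
def tree1DP : List ℕ := [
    5, 9, 4, 2, 9, 0, 9, 9, 9, 3, 9, 3, 9, 9, 0, 9, 4, 9, 9, 4, 9, 4, 2, 9, 9, 3, 9, 9, 1, 5,
    9, 9, 3, 9, 4, 2, 9, 9, 9, 0, 1, 2, 9, 9, 4, 9, 9, 9]

/-- Bisections for the nonpositive third moment. -/
def tree1DN : List ℕ := [
    5, 9, 4, 2, 9, 3, 9, 9, 9, 3, 2, 9, 4, 9, 9, 3, 2, 9, 9, 4, 9, 4, 9, 9, 0, 1, 2, 9, 4, 9,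
    9, 3, 9, 4, 9, 9, 4, 9, 5, 2, 9, 9, 5, 9, 9, 4, 9, 4, 2, 9, 0, 9, 9, 3, 9, 9, 1, 5, 9, 3,
    2, 9, 9, 9, 3, 2, 9, 3, 2, 9, 9, 9, 4, 2, 9, 9, 3, 2, 9, 9, 9, 0, 1, 2, 9, 9, 3, 2, 9, 9,
    9, 3, 9, 3, 2, 9, 9, 9]

/-- Coefficients on slab `250`..`342` thousandths, target `+`. -/
def maj2U : Maj :=
  ⟨41663, 2211384, 83632, -7085774, -9389, 4860936, 2975895, 310, -785359, -636024, -2311710,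
    48298, 100793, 193522, 312262⟩

/-- Bisections for the nonnegative third moment. -/
def tree2UP : List ℕ := [
    5, 1, 9, 4, 1, 9, 9, 9, 4, 1, 2, 9, 4, 2, 9, 9, 9, 5, 9, 9, 4, 9, 3, 9, 9, 3, 9, 3, 2, 2,
    2, 9, 9, 9, 9, 9, 0, 9, 4, 2, 2, 2, 9, 9, 9, 9, 9, 4, 1, 2, 9, 9, 5, 9, 4, 9, 4, 9, 9, 4,
    1, 2, 2, 9, 9, 3, 9, 9, 9, 3, 9, 9, 1, 5, 9, 9, 3, 2, 2, 2, 9, 9, 9, 3, 9, 3, 9, 9, 4, 2,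
    2, 9, 4, 9, 9, 5, 9, 9, 3, 9, 3, 9, 9, 0, 5, 1, 2, 9, 3, 1, 9, 9, 9, 3, 2, 9, 4, 9, 9, 5,
    9, 3, 9, 9, 1, 1, 9, 3, 9, 9, 4, 2, 9, 4, 2, 9, 9, 9, 5, 9, 9, 3, 2, 2, 9, 9, 3, 1, 9, 9,
    3, 9, 9, 4, 2, 9, 4, 9, 9, 3, 1, 1, 9, 9, 9, 9]

/-- Bisections for the nonpositive third moment. -/
def tree2UN : List ℕ := [
    5, 1, 9, 4, 1, 2, 9, 9, 9, 9, 4, 1, 2, 9, 4, 2, 9, 9, 9, 5, 9, 3, 2, 9, 9, 9, 4, 9, 3, 2,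
    9, 9, 9, 3, 2, 9, 3, 2, 2, 2, 2, 9, 9, 9, 9, 9, 9, 3, 2, 2, 9, 9, 4, 2, 2, 2, 2, 9, 9, 9,
    9, 9, 9, 5, 9, 4, 2, 2, 2, 9, 9, 9, 9, 9, 0, 1, 5, 1, 9, 9, 9, 5, 2, 9, 3, 2, 2, 2, 9, 9,
    9, 9, 9, 4, 1, 2, 2, 9, 9, 4, 9, 9, 3, 9, 4, 9, 9, 3, 2, 2, 9, 9, 9, 3, 9, 9, 4, 2, 2, 2,
    9, 9, 9, 4, 1, 2, 2, 9, 9, 9, 9, 9, 3, 1, 2, 2, 2, 2, 9, 9, 5, 9, 9, 3, 9, 9, 4, 2, 2, 9,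
    9, 9, 3, 9, 9, 5, 9, 4, 2, 2, 9, 9, 9, 9, 4, 9, 3, 2, 2, 9, 9, 9, 9, 4, 1, 1, 9, 9, 5, 5,
    9, 3, 9, 9, 4, 9, 4, 2, 9, 9, 9, 4, 1, 2, 2, 9, 9, 3, 9, 9, 2, 9, 9, 3, 1, 2, 9, 4, 9, 9,
    9, 4, 9, 9, 1, 5, 5, 1, 9, 9, 3, 9, 9, 4, 2, 9, 9, 9, 4, 2, 2, 2, 2, 9, 3, 9, 9, 4, 9, 9,
    5, 9, 9, 3, 2, 2, 9, 9, 9, 3, 9, 9, 4, 2, 2, 9, 9, 9, 3, 2, 9, 9, 9, 3, 1, 2, 2, 2, 9, 9,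
    4, 2, 9, 9, 9, 5, 5, 9, 9, 4, 2, 9, 9, 4, 9, 9, 3, 1, 2, 9, 9, 9, 3, 1, 2, 9, 3, 9, 9, 9,
    9, 3, 2, 2, 9, 9, 5, 2, 9, 4, 2, 9, 9, 9, 4, 9, 4, 2, 9, 9, 9, 3, 1, 2, 9, 3, 9, 9, 4, 9,
    3, 9, 9, 3, 1, 2, 9, 4, 9, 9, 5, 9, 9, 4, 9, 9]

/-- Coefficients on slab `250`..`342` thousandths, target `-`. -/
def maj2D : Maj :=
  ⟨14933, 2028999, 33012, -6311981, -3841, 4712572, 2209639, 131, -859712, -672540, -1689503,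
    64440, 118143, 149755, 206497⟩

/-- Bisections for the nonnegative third moment. -/
def tree2DP : List ℕ := [
    5, 9, 4, 9, 9, 3, 9, 3, 9, 9, 0, 9, 4, 9, 9, 4, 9, 4, 9, 9, 1, 9, 3, 9, 9, 0, 9, 9]

/-- Bisections for the nonpositive third moment. -/
def tree2DN : List ℕ := [
    5, 9, 4, 9, 9, 3, 2, 9, 9, 9, 0, 1, 9, 9, 4, 9, 3, 9, 9, 4, 1, 9, 9, 4, 9, 9, 1, 5, 9, 9,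
    4, 2, 9, 9, 4, 2, 9, 9, 9, 3, 1, 9, 9, 3, 2, 9, 9, 9]

end Vale.P154.PS.Wide
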