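import Mathlib

/-!
# Rational enclosures of the exponential at a quarter of the argument
-/

noncomputable section

namespace Vale.P154.PS.Wide

/-- The fourth power, by two squarings. -/
def pw4 (a : ℤ) : ℤ := (a * a) * (a * a)

/-- `5040 * D ^ 7` times the exponential series to the seventh order at `E / D`. -/
def serN (E D : ℤ) : ℤ :=
  5040 * (pw4 D * (D * D * D)) + E * (5040 * ((D * D * D) * (D * D * D))
    + E * (2520 * (pw4 D * D) + E * (840 * pw4 D + E * (210 * (D * D * D)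
    + E * (42 * (D * D) + E * (7 * D + E))))))

/-- Numerator of an upper bound for `exp (E / D)`. -/
def hiN (E D : ℤ) : ℤ := 64 * D * serN E D + 9 * (pw4 E * pw4 E)

/-- Numerator of a lower bound for `exp (E / D)`. -/
def loN (E D : ℤ) : ℤ := 64 * D * serN E D - 9 * (pw4 E * pw4 E)

/-- The common denominator of `hiN` and `loN`. -/
def denN (D : ℤ) : ℤ := 322560 * (pw4 D * pw4 D)

theorem pw4_eq (a : ℤ) : pw4 a = a ^ 4 := by unfold pw4; ring

theorem exp_le_hiN {E D : ℤ} (hD : 0 < D) (h1 : -D ≤ E) (h2 : E ≤ D) :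
    |Real.exp ((E : ℝ) / D) - 64 * D * serN E D / denN D| ≤ 9 * (E : ℝ) ^ 8 / denN D := by
  have hD' : (0 : ℝ) < D := by exact_mod_cast hD
  have h1' : -(D : ℝ) ≤ E := by exact_mod_cast h1
  have h2' : (E : ℝ) ≤ D := by exact_mod_cast h2
  have hx : |(E : ℝ) / D| ≤ 1 := by
    rw [abs_div, abs_of_pos hD', div_le_one hD', abs_le]; exact ⟨h1', h2'⟩
  have hb := Real.exp_bound hx (n := 8) (by norm_num)
  simp only [Finset.sum_range_succ, Finset.sum_range_zero] at hb
  norm_num [Nat.factorial] at hb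
  have e1 : (64 * D * serN E D / denN D : ℝ) = 1 + (E : ℝ) / D + ((E : ℝ) / D) ^ 2 / 2
      + ((E : ℝ) / D) ^ 3 / 6 + ((E : ℝ) / D) ^ 4 / 24 + ((E : ℝ) / D) ^ 5 / 120
      + ((E : ℝ) / D) ^ 6 / 720 + ((E : ℝ) / D) ^ 7 / 5040 := by
    simp only [serN, denN, pw4]; push_cast; field_simp; ring
  have e2 : 9 * (E : ℝ) ^ 8 / denN D = |(E : ℝ) / D| ^ 8 * (9 / (40320 * 8)) := by
    rw [(show Even 8 by decide).pow_abs]
    simp only [denN, pw4]; push_cast; field_simp; ring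
  rw [e1, e2]
  refine le_trans (le_of_eq ?_) (hb.trans (le_of_eq ?_))
  · congr 1
  · rw [(show Even 8 by decide).pow_abs]; norm_num

theorem exp4_eq (E D : ℤ) (x : ℝ) (hx : x = 4 * ((E : ℝ) / D)) :
    Real.exp x = Real.exp ((E : ℝ) / D) ^ 4 := by
  rw [hx, ← Real.exp_nat_mul]; norm_num

/-- Upper bound for the exponential at four times `E / D`. -/
theorem exp_le_pow {E D : ℤ} (hD : 0 < D) (h1 : -D ≤ E) (h2 : E ≤ D) :
    Real.exp (4 * ((E : ℝ) / D)) * (denN D : ℝ) ^ 4 ≤ (hiN E D : ℝ) ^ 4 := by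
  have hd : (0 : ℝ) < denN D := by simp only [denN, pw4]; push_cast; positivity
  have h := (abs_le.1 (exp_le_hiN hD h1 h2)).2
  rw [exp4_eq E D _ rfl, ← mul_pow]
  refine pow_le_pow_left₀ (mul_nonneg (Real.exp_pos _).le hd.le) ?_ 4
  have h' := mul_le_mul_of_nonneg_right (sub_le_iff_le_add.1 h) hd.le
  rw [add_mul, div_mul_cancel₀ _ hd.ne', div_mul_cancel₀ _ hd.ne'] at h'
  simp only [hiN, pw4]; push_cast; linarith

/-- Lower bound for the exponential at four times `E / D`. -/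
theorem pow_le_exp {E D : ℤ} (hD : 0 < D) (h1 : -D ≤ E) (h2 : E ≤ D) (h0 : 0 ≤ loN E D) :
    (loN E D : ℝ) ^ 4 ≤ Real.exp (4 * ((E : ℝ) / D)) * (denN D : ℝ) ^ 4 := by
  have hd : (0 : ℝ) < denN D := by simp only [denN, pw4]; push_cast; positivity
  have h := (abs_le.1 (exp_le_hiN hD h1 h2)).1
  rw [exp4_eq E D _ rfl, ← mul_pow]
  refine pow_le_pow_left₀ (by exact_mod_cast h0) ?_ 4
  have h' := mul_le_mul_of_nonneg_right (neg_le_sub_iff_le_add.1 h) hd.le
  rw [add_mul, div_mul_cancel₀ _ hd.ne', div_mul_cancel₀ _ hd.ne'] at h'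
  simp only [loN, pw4]; push_cast; linarith

end Vale.P154.PS.Wide
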