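import Vale.Agent.P154.Pois.Wide.Exp
import Vale.Agent.P154.Pois.Wide.Curve

/-!
# A checker for exponential sums below a linear form on tetrahedra

Terms with a positive coefficient are convex, terms with a negative coefficient are bounded by
their tangent at the centre of the tetrahedron, so the upper bound is convex and only the vertices
need to be checked. Tetrahedra are bisected along an edge following a list of edge numbers.
-/

noncomputable section

namespace Vale.P154.PS.Wide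

open Finset

/-- `n / 10 ^ 6 * exp ((a p + b t + c w + d f) / 4)`. -/
structure Term where
  n : ℤ
  a : ℤ
  b : ℤ
  c : ℤ
  d : ℤ

/-- A vertex with integer numerators. -/
structure Pt where
  P : ℤ
  T : ℤ
  W : ℤ

/-- A tetrahedron. -/
structure Quad where
  A : Pt
  B : Pt
  C : Pt
  D : Pt

/-- The exponent of a term. -/
def Term.expo (T : Term) (p t w f : ℝ) : ℝ := (T.a * p + T.b * t + T.c * w + T.d * f) / 4

/-- The exponential sum minus the linear form plus the decrease. -/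
def excess (L : List Term) (kt kw dl : ℤ) (p t w f : ℝ) : ℝ :=
  (L.map fun T => (T.n : ℝ) / 10 ^ 6 * Real.exp (T.expo p t w f)).sum
    - (p + ((kt : ℝ) * t + kw * w) / 100) + dl / 10 ^ 6

/-- `8 Q` times the exponent at a vertex, `s = ±1` giving `f = s w / 2`. -/
def Term.eN (T : Term) (X : Pt) (s : ℤ) : ℤ :=
  2 * (T.a * X.P + T.b * X.T + T.c * X.W) + s * T.d * X.W

/-- `8 Q` times the exponent at the tangency point. -/
def Term.cN (T : Term) (U : Quad) : ℤ :=
  (T.eN U.A 0 + T.eN U.B 0 + T.eN U.C 0 + T.eN U.D 0) / 4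

/-- The value of one term at a vertex, in units of `10 ^ 6 * denN ^ 4 * 8 Q * 100`. -/
def Term.vN (T : Term) (Q : ℤ) (U : Quad) (X : Pt) (s : ℤ) : ℤ :=
  if 0 ≤ T.n then T.n * pw4 (hiN (T.eN X s) (32 * Q)) * (800 * Q)
  else T.n * pw4 (loN (T.cN U) (32 * Q)) * (100 * (8 * Q + T.eN X s - T.cN U))

/-- Side conditions of the bound for one term at a vertex. -/
def Term.good (T : Term) (Q : ℤ) (U : Quad) (X : Pt) (s : ℤ) : Bool :=
  if 0 ≤ T.n then decide (-(32 * Q) ≤ T.eN X s) && decide (T.eN X s ≤ 32 * Q)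
  else decide (-(32 * Q) ≤ T.cN U) && decide (T.cN U ≤ 32 * Q) &&
    decide (0 ≤ loN (T.cN U) (32 * Q))

/-- The check at one vertex. -/
def vertOk (L : List Term) (kt kw dl Q : ℤ) (U : Quad) (X : Pt) (s : ℤ) : Bool :=
  L.all (fun T => T.good Q U X s) &&
    decide ((L.map fun T => T.vN Q U X s).sum + (dl * (800 * Q)
      - (100 * X.P + kt * X.T + kw * X.W) * 8000000) * pw4 (denN (32 * Q)) ≤ 0)

/-- The check on one tetrahedron. -/
def leafOk (L : List Term) (kt kw dl Q : ℤ) (U : Quad) : Bool :=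
  vertOk L kt kw dl Q U U.A 1 && vertOk L kt kw dl Q U U.A (-1) &&
  vertOk L kt kw dl Q U U.B 1 && vertOk L kt kw dl Q U U.B (-1) &&
  vertOk L kt kw dl Q U U.C 1 && vertOk L kt kw dl Q U U.C (-1) &&
  vertOk L kt kw dl Q U U.D 1 && vertOk L kt kw dl Q U U.D (-1)

/-- Doubled numerators. -/
def Pt.dbl (X : Pt) : Pt := ⟨2 * X.P, 2 * X.T, 2 * X.W⟩

/-- The numerators of a midpoint over the doubled denominator. -/
def Pt.mid (X Y : Pt) : Pt := ⟨X.P + Y.P, X.T + Y.T, X.W + Y.W⟩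

/-- The tetrahedron with the vertices reordered so that edge `k` comes first. -/
def Quad.rot (U : Quad) : ℕ → Quad
  | 0 => ⟨U.A, U.B, U.C, U.D⟩
  | 1 => ⟨U.A, U.C, U.B, U.D⟩
  | 2 => ⟨U.A, U.D, U.B, U.C⟩
  | 3 => ⟨U.B, U.C, U.A, U.D⟩
  | 4 => ⟨U.B, U.D, U.A, U.C⟩
  | _ => ⟨U.C, U.D, U.A, U.B⟩

/-- The half at the first vertex. -/
def Quad.fst (U : Quad) : Quad := ⟨U.A.dbl, U.A.mid U.B, U.C.dbl, U.D.dbl⟩

/-- The half at the second vertex. -/
def Quad.snd (U : Quad) : Quad := ⟨U.A.mid U.B, U.B.dbl, U.C.dbl, U.D.dbl⟩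

/-- Evaluate a vertex. -/
def Pt.force (X : Pt) (k : Pt → Bool) : Bool :=
  Wide.force X.P fun P => Wide.force X.T fun T => Wide.force X.W fun W => k ⟨P, T, W⟩

/-- Evaluate a tetrahedron and its denominator. -/
def force4 (Q : ℤ) (U : Quad) (k : ℤ → Quad → Bool) : Bool :=
  Wide.force Q fun Q => U.A.force fun A => U.B.force fun B => U.C.force fun C => U.D.force fun D =>
    k Q ⟨A, B, C, D⟩

theorem force4_eq (Q : ℤ) (U : Quad) (k : ℤ → Quad → Bool) : force4 Q U k = k Q U := by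
  simp only [force4, Pt.force, force_eq]

/-- Follow a list of edge numbers (`9` = leaf) in preorder. -/
def walk (L : List Term) (kt kw dl : ℤ) : ℕ → ℤ → Quad → List ℕ → Option (List ℕ)
  | 0, _, _, _ => none
  | _ + 1, _, _, [] => none
  | fuel + 1, Q, U, k :: r =>
    if k = 9 then (if force4 Q U (leafOk L kt kw dl) then some r else none)
    else match walk L kt kw dl fuel (2 * Q) (U.rot k).fst r with
      | none => none
      | some r' => walk L kt kw dl fuel (2 * Q) (U.rot k).snd r'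

/-- The excess is nonpositive over the tetrahedron. -/
def Holds (L : List Term) (kt kw dl Q : ℤ) (U : Quad) : Prop :=
  ∀ a b c e g : ℝ, 0 ≤ a → 0 ≤ b → 0 ≤ c → 0 ≤ e → a + b + c + e = 1 → |g| ≤ 1 / 2 →
    excess L kt kw dl ((a * U.A.P + b * U.B.P + c * U.C.P + e * U.D.P) / Q)
      ((a * U.A.T + b * U.B.T + c * U.C.T + e * U.D.T) / Q)
      ((a * U.A.W + b * U.B.W + c * U.C.W + e * U.D.W) / Q)
      (g * ((a * U.A.W + b * U.B.W + c * U.C.W + e * U.D.W) / Q)) ≤ 0

variable {L : List Term} {kt kw dl Q : ℤ} {U : Quad}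

theorem holds_of_rot (k : ℕ) (h : Holds L kt kw dl Q (U.rot k)) : Holds L kt kw dl Q U := by
  intro a b c e g ha hb hc he hs hg
  match k with
  | 0 => exact h a b c e g ha hb hc he hs hg
  | 1 => convert h a c b e g ha hc hb he (by linarith) hg using 2 <;> simp only [Quad.rot] <;> ring
  | 2 => convert h a e b c g ha he hb hc (by linarith) hg using 2 <;> simp only [Quad.rot] <;> ring
  | 3 => convert h b c a e g hb hc ha he (by linarith) hg using 2 <;> simp only [Quad.rot] <;> ring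
  | 4 => convert h b e a c g hb he ha hc (by linarith) hg using 2 <;> simp only [Quad.rot] <;> ring
  | n + 5 => convert h c e a b g hc he ha hb (by linarith) hg using 2 <;> simp only [Quad.rot] <;> ring

theorem holds_of_halves (h1 : Holds L kt kw dl (2 * Q) U.fst)
    (h2 : Holds L kt kw dl (2 * Q) U.snd) : Holds L kt kw dl Q U := by
  intro a b c e g ha hb hc he hs hg
  rcases le_total b a with h | h
  · convert h1 (a - b) (2 * b) c e g (by linarith) (by linarith) hc he (by linarith) hg using 2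
      <;> simp only [Quad.fst, Pt.dbl, Pt.mid] <;> push_cast <;> field_simp <;> ring
  · convert h2 (2 * a) (b - a) c e g (by linarith) (by linarith) hc he (by linarith) hg using 2
      <;> simp only [Quad.snd, Pt.dbl, Pt.mid] <;> push_cast <;> field_simp <;> ring

/-- The convex upper bound for one term, as a function of its exponent. -/
def Term.upper (T : Term) (Q : ℤ) (U : Quad) (x : ℝ) : ℝ :=
  if 0 ≤ T.n then (T.n : ℝ) / 10 ^ 6 * Real.exp x
  else (T.n : ℝ) / 10 ^ 6 * ((loN (T.cN U) (32 * Q) : ℝ) ^ 4 / (denN (32 * Q) : ℝ) ^ 4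
    * (1 + x - (T.cN U : ℝ) / (8 * Q)))

theorem Term.upper_convex (T : Term) {a b c e x y z u : ℝ} (ha : 0 ≤ a) (hb : 0 ≤ b) (hc : 0 ≤ c)
    (he : 0 ≤ e) (hs : a + b + c + e = 1) :
    T.upper Q U (a * x + b * y + c * z + e * u)
      ≤ a * T.upper Q U x + b * T.upper Q U y + c * T.upper Q U z + e * T.upper Q U u := by
  unfold Term.upper
  split
  next h =>
    have hcx := convexOn_exp.map_sum_le (t := Finset.univ) (w := ![a, b, c, e]) (p := ![x, y, z, u])
      (fun i _ => by fin_cases i <;> assumption)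
      (by simpa [Fin.sum_univ_four] using hs) (fun i _ => Set.mem_univ _)
    simp [Fin.sum_univ_four] at hcx
    have hn : (0 : ℝ) ≤ (T.n : ℝ) / 10 ^ 6 := by positivity
    have := mul_le_mul_of_nonneg_left hcx hn
    linarith
  next h =>
    refine le_of_eq ?_
    set k := (T.n : ℝ) / 10 ^ 6
    set l := (loN (T.cN U) (32 * Q) : ℝ) ^ 4 / (denN (32 * Q) : ℝ) ^ 4
    set m := (T.cN U : ℝ) / (8 * Q)
    rw [show (1 : ℝ) + (a * x + b * y + c * z + e * u) - m
      = a * (1 + x - m) + b * (1 + y - m) + c * (1 + z - m) + e * (1 + u - m) by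
        linear_combination (m - 1) * hs]
    ring

theorem Term.le_upper {T : Term} (hQ : 0 < Q) {X : Pt} {s : ℤ} (hg : T.good Q U X s = true)
    (x : ℝ) : (T.n : ℝ) / 10 ^ 6 * Real.exp x ≤ T.upper Q U x := by
  unfold Term.upper
  split
  next h => exact le_rfl
  next h =>
    simp only [Term.good, h, if_false, Bool.and_eq_true, decide_eq_true_eq] at hg
    obtain ⟨⟨h1, h2⟩, h0⟩ := hg
    refine mul_le_mul_of_nonpos_left ?_
      (div_nonpos_of_nonpos_of_nonneg (by exact_mod_cast (not_le.1 h).le) (by positivity))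
    set e0 := (T.cN U : ℝ) / (8 * Q) with he0
    have hD : (0 : ℤ) < 32 * Q := by omega
    have hd : (0 : ℝ) < (denN (32 * Q) : ℝ) ^ 4 := by
      have : (0 : ℝ) < Q := by exact_mod_cast hQ
      simp only [denN, pw4]; push_cast; positivity
    have hb := pow_le_exp hD h1 h2 h0
    rw [show (4 : ℝ) * ((T.cN U : ℝ) / ((32 * Q : ℤ) : ℝ)) = e0 by
      rw [he0]; push_cast; field_simp; ring] at hb
    have hl : (loN (T.cN U) (32 * Q) : ℝ) ^ 4 / (denN (32 * Q) : ℝ) ^ 4 ≤ Real.exp e0 :=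
      (div_le_iff₀ hd).2 hb
    have hl0 : (0 : ℝ) ≤ (loN (T.cN U) (32 * Q) : ℝ) ^ 4 / (denN (32 * Q) : ℝ) ^ 4 := by
      have : (0 : ℝ) ≤ (loN (T.cN U) (32 * Q) : ℝ) := by exact_mod_cast h0
      positivity
    have hsplit : Real.exp x = Real.exp e0 * Real.exp (x - e0) := by
      rw [← Real.exp_add]; ring_nf
    rcases le_total 0 (1 + x - e0) with h' | h'
    · calc _ ≤ Real.exp e0 * (1 + x - e0) := mul_le_mul_of_nonneg_right hl h'
        _ ≤ Real.exp e0 * Real.exp (x - e0) :=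
          mul_le_mul_of_nonneg_left (by linarith [Real.add_one_le_exp (x - e0)]) (Real.exp_pos _).le
        _ = _ := hsplit.symm
    · exact (mul_nonpos_of_nonneg_of_nonpos hl0 h').trans (Real.exp_pos _).le

theorem Term.upper_le_vN {T : Term} (hQ : 0 < Q) {X : Pt} {s : ℤ} (hg : T.good Q U X s = true) :
    T.upper Q U ((T.eN X s : ℝ) / (8 * Q)) * (10 ^ 6 * (denN (32 * Q) : ℝ) ^ 4 * (800 * Q))
      ≤ T.vN Q U X s := by
  have hQ' : (0 : ℝ) < Q := by exact_mod_cast hQ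
  have hd : (0 : ℝ) < (denN (32 * Q) : ℝ) ^ 4 := by simp only [denN, pw4]; push_cast; positivity
  unfold Term.upper Term.vN
  simp only [pw4_eq]
  split
  next h =>
    simp only [Term.good, h, if_true, Bool.and_eq_true, decide_eq_true_eq] at hg
    have hb := exp_le_pow (show (0 : ℤ) < 32 * Q by omega) hg.1 hg.2
    rw [show (4 : ℝ) * ((T.eN X s : ℝ) / ((32 * Q : ℤ) : ℝ)) = (T.eN X s : ℝ) / (8 * Q) by
      push_cast; field_simp; ring] at hb
    push_cast
    have hn : (0 : ℝ) ≤ T.n := by exact_mod_cast h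
    calc _ = (T.n : ℝ) * (Real.exp ((T.eN X s : ℝ) / (8 * Q)) * (denN (32 * Q) : ℝ) ^ 4)
          * (800 * Q) := by ring
      _ ≤ _ := by gcongr
  next h =>
    refine le_of_eq ?_
    have hne : (denN (32 * Q) : ℝ) ≠ 0 := fun h0 => by simp [h0] at hd
    push_cast
    field_simp
    ring

theorem vert_le (hQ : 0 < Q) {X : Pt} {s : ℤ} (h : vertOk L kt kw dl Q U X s = true) :
    (∀ T ∈ L, T.good Q U X s = true) ∧
    (L.map fun T => T.upper Q U ((T.eN X s : ℝ) / (8 * Q))).sum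
      - ((X.P : ℝ) / Q + ((kt : ℝ) * (X.T / Q) + kw * (X.W / Q)) / 100) + dl / 10 ^ 6 ≤ 0 := by
  simp only [vertOk, pw4_eq, Bool.and_eq_true, List.all_eq_true, decide_eq_true_eq] at h
  refine ⟨h.1, ?_⟩
  have hQ' : (0 : ℝ) < Q := by exact_mod_cast hQ
  have hd : (0 : ℝ) < (denN (32 * Q) : ℝ) ^ 4 := by simp only [denN, pw4]; push_cast; positivity
  set K : ℝ := 10 ^ 6 * (denN (32 * Q) : ℝ) ^ 4 * (800 * Q) with hK
  have hK0 : 0 < K := by positivity
  have hs : (L.map fun T => T.upper Q U ((T.eN X s : ℝ) / (8 * Q))).sum * K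
      ≤ (L.map fun T => (T.vN Q U X s : ℝ)).sum := by
    rw [← List.sum_map_mul_right]
    exact List.sum_le_sum fun T hT => Term.upper_le_vN hQ (h.1 T hT)
  have h2 : (L.map fun T => (T.vN Q U X s : ℝ)).sum + ((dl : ℝ) * (800 * Q)
      - (100 * X.P + kt * X.T + kw * X.W) * 8000000) * (denN (32 * Q) : ℝ) ^ 4 ≤ 0 := by
    have h' : (((L.map fun T => T.vN Q U X s).sum + (dl * (800 * Q)
      - (100 * X.P + kt * X.T + kw * X.W) * 8000000) * denN (32 * Q) ^ 4 : ℤ) : ℝ) ≤ ((0 : ℤ) : ℝ) :=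
      Int.cast_le.2 h.2
    simpa [Int.cast_list_sum, List.map_map, Function.comp_def] using h'
  refine le_of_mul_le_mul_right ?_ hK0
  rw [zero_mul, add_mul, sub_mul]
  have e1 : (dl : ℝ) / 10 ^ 6 * K = (dl : ℝ) * (800 * Q) * (denN (32 * Q) : ℝ) ^ 4 := by
    rw [hK]; field_simp
  have e2 : ((X.P : ℝ) / Q + ((kt : ℝ) * (X.T / Q) + kw * (X.W / Q)) / 100) * K
      = (100 * X.P + kt * X.T + kw * X.W) * 8000000 * (denN (32 * Q) : ℝ) ^ 4 := by
    rw [hK]; field_simp; ring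
  rw [e1, e2]
  linarith

theorem holds_of_leaf (hQ : 0 < Q) (h : leafOk L kt kw dl Q U = true) :
    Holds L kt kw dl Q U := by
  simp only [leafOk, Bool.and_eq_true] at h
  obtain ⟨⟨⟨⟨⟨⟨⟨hA, hA'⟩, hB⟩, hB'⟩, hC⟩, hC'⟩, hD⟩, hD'⟩ := h
  obtain ⟨gA, kA⟩ := vert_le hQ hA
  obtain ⟨-, kA'⟩ := vert_le hQ hA'
  obtain ⟨-, kB⟩ := vert_le hQ hB
  obtain ⟨-, kB'⟩ := vert_le hQ hB'
  obtain ⟨-, kC⟩ := vert_le hQ hC
  obtain ⟨-, kC'⟩ := vert_le hQ hC'
  obtain ⟨-, kD⟩ := vert_le hQ hD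
  obtain ⟨-, kD'⟩ := vert_le hQ hD'
  intro a b c e g ha hb hc he hs hg
  obtain ⟨g1, g2⟩ := abs_le.1 hg
  obtain ⟨θ, hθ0, hθ1, rfl⟩ : ∃ θ : ℝ, 0 ≤ θ ∧ θ ≤ 1 ∧ g = θ - 1 / 2 :=
    ⟨g + 1 / 2, by linarith, by linarith, by ring⟩
  set F : Pt → ℤ → ℝ := fun X s => (L.map fun T => T.upper Q U ((T.eN X s : ℝ) / (8 * Q))).sum
    with hF
  have key : ∀ T ∈ L, (T.n : ℝ) / 10 ^ 6 * Real.exp (T.expo
      ((a * U.A.P + b * U.B.P + c * U.C.P + e * U.D.P) / Q)
      ((a * U.A.T + b * U.B.T + c * U.C.T + e * U.D.T) / Q)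
      ((a * U.A.W + b * U.B.W + c * U.C.W + e * U.D.W) / Q)
      ((θ - 1 / 2) * ((a * U.A.W + b * U.B.W + c * U.C.W + e * U.D.W) / Q)))
      ≤ θ * (a * T.upper Q U ((T.eN U.A 1 : ℝ) / (8 * Q)) + b * T.upper Q U ((T.eN U.B 1 : ℝ) / (8 * Q))
          + c * T.upper Q U ((T.eN U.C 1 : ℝ) / (8 * Q)) + e * T.upper Q U ((T.eN U.D 1 : ℝ) / (8 * Q)))
        + (1 - θ) * (a * T.upper Q U ((T.eN U.A (-1) : ℝ) / (8 * Q))
          + b * T.upper Q U ((T.eN U.B (-1) : ℝ) / (8 * Q))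
          + c * T.upper Q U ((T.eN U.C (-1) : ℝ) / (8 * Q))
          + e * T.upper Q U ((T.eN U.D (-1) : ℝ) / (8 * Q))) := by
    intro T hT
    refine (Term.le_upper hQ (gA T hT) _).trans ?_
    set x := a * ((T.eN U.A 1 : ℝ) / (8 * Q)) + b * ((T.eN U.B 1 : ℝ) / (8 * Q))
      + c * ((T.eN U.C 1 : ℝ) / (8 * Q)) + e * ((T.eN U.D 1 : ℝ) / (8 * Q)) with hx
    set y := a * ((T.eN U.A (-1) : ℝ) / (8 * Q)) + b * ((T.eN U.B (-1) : ℝ) / (8 * Q))
      + c * ((T.eN U.C (-1) : ℝ) / (8 * Q)) + e * ((T.eN U.D (-1) : ℝ) / (8 * Q)) with hy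
    have hxy := T.upper_convex (Q := Q) (U := U) (x := x) (y := y) (z := 0) (u := 0) hθ0
      (by linarith : 0 ≤ 1 - θ) (le_refl (0 : ℝ)) (le_refl (0 : ℝ)) (by ring)
    simp only [zero_mul, add_zero] at hxy
    refine le_trans (le_of_eq ?_) (hxy.trans (add_le_add
      (mul_le_mul_of_nonneg_left (T.upper_convex ha hb hc he hs) hθ0)
      (mul_le_mul_of_nonneg_left (T.upper_convex ha hb hc he hs) (by linarith))))
    congr 1
    simp only [hx, hy, Term.expo, Term.eN]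
    push_cast
    field_simp
    ring
  refine le_trans ?_ (show θ * (a * (F U.A 1 - ((U.A.P : ℝ) / Q + ((kt : ℝ) * (U.A.T / Q) + kw * (U.A.W / Q)) / 100) + dl / 10 ^ 6)
      + b * (F U.B 1 - ((U.B.P : ℝ) / Q + ((kt : ℝ) * (U.B.T / Q) + kw * (U.B.W / Q)) / 100) + dl / 10 ^ 6)
      + c * (F U.C 1 - ((U.C.P : ℝ) / Q + ((kt : ℝ) * (U.C.T / Q) + kw * (U.C.W / Q)) / 100) + dl / 10 ^ 6)
      + e * (F U.D 1 - ((U.D.P : ℝ) / Q + ((kt : ℝ) * (U.D.T / Q) + kw * (U.D.W / Q)) / 100) + dl / 10 ^ 6))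
      + (1 - θ) * (a * (F U.A (-1) - ((U.A.P : ℝ) / Q + ((kt : ℝ) * (U.A.T / Q) + kw * (U.A.W / Q)) / 100) + dl / 10 ^ 6)
      + b * (F U.B (-1) - ((U.B.P : ℝ) / Q + ((kt : ℝ) * (U.B.T / Q) + kw * (U.B.W / Q)) / 100) + dl / 10 ^ 6)
      + c * (F U.C (-1) - ((U.C.P : ℝ) / Q + ((kt : ℝ) * (U.C.T / Q) + kw * (U.C.W / Q)) / 100) + dl / 10 ^ 6)
      + e * (F U.D (-1) - ((U.D.P : ℝ) / Q + ((kt : ℝ) * (U.D.T / Q) + kw * (U.D.W / Q)) / 100) + dl / 10 ^ 6)) ≤ 0 from ?_)
  · unfold excess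
    have hsum := List.sum_le_sum key
    simp only [hF]
    simp only [List.sum_map_add, List.sum_map_mul_left] at hsum
    refine le_trans (add_le_add (sub_le_sub hsum le_rfl) le_rfl) (le_of_eq ?_)
    linear_combination (dl / 10 ^ 6 : ℝ) * (-hs)
  · have m := fun {r : ℝ} {v : ℝ} (h1 : 0 ≤ r) (h2 : v ≤ 0) => mul_nonpos_of_nonneg_of_nonpos h1 h2
    exact add_nonpos (m hθ0 (add_nonpos (add_nonpos (add_nonpos (m ha kA) (m hb kB)) (m hc kC))
        (m he kD)))
      (m (by linarith) (add_nonpos (add_nonpos (add_nonpos (m ha kA') (m hb kB')) (m hc kC'))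
        (m he kD')))

theorem holds_of_walk : ∀ (fuel : ℕ) (Q : ℤ) (U : Quad) (l r : List ℕ), 0 < Q →
    walk L kt kw dl fuel Q U l = some r → Holds L kt kw dl Q U := by
  intro fuel
  induction fuel with
  | zero => intro Q U l r _ h; simp [walk] at h
  | succ fuel ih =>
    intro Q U l r hQ h
    cases l with
    | nil => simp [walk] at h
    | cons k t =>
      simp only [walk] at h
      by_cases hk : k = 9
      · simp only [hk, if_true] at h
        rw [force4_eq] at h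
        by_cases hl : leafOk L kt kw dl Q U = true
        · exact holds_of_leaf hQ hl
        · simp [hl] at h
      · simp only [hk, if_false] at h
        split at h
        · simp at h
        next r' hr =>
          exact holds_of_rot k (holds_of_halves (ih _ _ _ _ (by omega) hr)
            (ih _ _ _ _ (by omega) h))

end Vale.P154.PS.Wide
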