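import Vale.Agent.P154.Pois.Three
import Vale.Agent.P154.Pois.Wide.Curve
import Vale.Agent.P154.Pois.Wide.Simplex

/-!
# Checked polynomial majorants of degree five for three states
-/

noncomputable section

namespace Vale.P154.PS.Wide

open Finset

/-- Coefficients in units of `10 ^ -6`, class by class. -/
structure Maj where
  c0 : ℤ
  c1 : ℤ
  c2 : ℤ
  c3 : ℤ
  c4 : ℤ
  c5 : ℤ
  c6 : ℤ
  c7 : ℤ
  c8 : ℤ
  c9 : ℤ
  c10 : ℤ
  c11 : ℤ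
  c12 : ℤ
  c13 : ℤ
  c14 : ℤ

/-- The exponent classes of degree at most five except `(5, 0, 0)`. -/
def bet15 : Fin 15 → Fin 3 → ℕ :=
  ![![0, 0, 0], ![1, 0, 0], ![2, 0, 0], ![1, 1, 0], ![3, 0, 0], ![2, 1, 0], ![1, 1, 1], ![4, 0, 0],
    ![3, 1, 0], ![2, 2, 0], ![2, 1, 1], ![4, 1, 0], ![3, 2, 0], ![3, 1, 1], ![2, 2, 1]]

/-- Four times the exponents of the four moments, class by class. -/
def lin15 : Fin 15 → Fin 4 → ℤ :=
  ![![0, 0, 0, 0], ![0, 0, 0, 0], ![4, 0, 0, 0], ![-2, 0, 0, 0], ![12, 4, 0, 0],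
    ![0, -2, 0, 0], ![-6, 4, 0, 0], ![24, 16, 6, 0], ![6, -2, -3, 0], ![0, -8, 3, 0],
    ![-6, 4, 0, 0], ![16, 4, -6, -5], ![4, -14, 3, 1], ![-2, 4, -6, 4], ![-8, 4, 3, -2]]

/-- The coefficient vector. -/
def Maj.vec (m : Maj) : Fin 15 → ℝ := fun j =>
  ((![m.c0, m.c1, m.c2, m.c3, m.c4, m.c5, m.c6, m.c7, m.c8, m.c9, m.c10, m.c11, m.c12, m.c13, m.c14] : Fin 15 → ℤ) j : ℝ) / 10 ^ 6

/-- The exponential sum of a vector; the classes of equal exponent are merged. -/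
def Maj.terms (m : Maj) : List Term :=
  [⟨m.c0 + m.c1, 0, 0, 0, 0⟩,
    ⟨m.c2, 4, 0, 0, 0⟩,
    ⟨m.c3, -2, 0, 0, 0⟩,
    ⟨m.c4, 12, 4, 0, 0⟩,
    ⟨m.c5, 0, -2, 0, 0⟩,
    ⟨m.c6 + m.c10, -6, 4, 0, 0⟩,
    ⟨m.c7, 24, 16, 6, 0⟩,
    ⟨m.c8, 6, -2, -3, 0⟩,
    ⟨m.c9, 0, -8, 3, 0⟩,
    ⟨m.c11, 16, 4, -6, -5⟩,
    ⟨m.c12, 4, -14, 3, 1⟩,
    ⟨m.c13, -2, 4, -6, 4⟩,
    ⟨m.c14, -8, 4, 3, -2⟩]

/-- The five features on a curve. -/
structure S5 where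
  one : S6 ℤ
  x : S6 ℤ
  e : S6 ℤ
  xx : S6 ℤ
  xe : S6 ℤ

/-- The five features on a curve, times `32`. -/
def featUp : S5 :=
  ⟨⟨32, 160, 320, 320, 160, 32⟩, ⟨0, 0, 64, 192, 192, 64⟩, ⟨0, 0, 0, 64, 128, 64⟩,
    ⟨0, 0, 0, 0, 128, 128⟩, ⟨0, 0, 0, 0, 0, 128⟩⟩

/-- The five features on a curve, times `32`. -/
def featLo : S5 :=
  ⟨⟨32, 160, 320, 320, 160, 32⟩, ⟨0, 0, 16, 48, 48, 16⟩, ⟨0, 0, 0, -8, -16, -8⟩,
    ⟨0, 0, 0, 0, 8, 8⟩, ⟨0, 0, 0, 0, 0, -4⟩⟩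

/-- The five features on a curve, times `32`. -/
def featEdge : S5 :=
  ⟨⟨32, 160, 320, 320, 160, 32⟩, ⟨16, 112, 304, 400, 256, 64⟩, ⟨-8, 8, 136, 280, 224, 64⟩,
    ⟨8, 72, 256, 448, 384, 128⟩, ⟨-4, -4, 80, 272, 320, 128⟩⟩

/-- A combination of the five features. -/
def lc5 (f : S5) (k0 k1 k2 k3 k4 : ℤ) : S6 ℤ :=
  ⟨k0 * f.one.a0 + k1 * f.x.a0 + k2 * f.e.a0 + k3 * f.xx.a0 + k4 * f.xe.a0,
    k0 * f.one.a1 + k1 * f.x.a1 + k2 * f.e.a1 + k3 * f.xx.a1 + k4 * f.xe.a1,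
    k0 * f.one.a2 + k1 * f.x.a2 + k2 * f.e.a2 + k3 * f.xx.a2 + k4 * f.xe.a2,
    k0 * f.one.a3 + k1 * f.x.a3 + k2 * f.e.a3 + k3 * f.xx.a3 + k4 * f.xe.a3,
    k0 * f.one.a4 + k1 * f.x.a4 + k2 * f.e.a4 + k3 * f.xx.a4 + k4 * f.xe.a4,
    k0 * f.one.a5 + k1 * f.x.a5 + k2 * f.e.a5 + k3 * f.xx.a5 + k4 * f.xe.a5⟩

/-- Majorant minus target on a curve, power by power of the mean. -/
def Maj.form (m : Maj) (al be : ℤ) (f : S5) : S6 (S6 ℤ) :=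
  ⟨lc5 f (4 * m.c0) (0) (0) (0) (0),
    lc5 f (4 * m.c1) (-4000000) (-(4 * al)) (-(4 * be)) (0),
    lc5 f (4 * m.c2 + 4 * m.c3) (4 * m.c2 - 2 * m.c3) (0) (0) (0),
    lc5 f (4 * m.c4 + 4 * m.c5 + 4 * m.c6) (12 * m.c4 - 6 * m.c6) (4 * m.c4 - 2 * m.c5 + 4 * m.c6) (0) (0),
    lc5 f (4 * m.c7 + 4 * m.c8 + 4 * m.c9 + 4 * m.c10) (24 * m.c7 + 6 * m.c8 - 6 * m.c10) (16 * m.c7 - 2 * m.c8 - 8 * m.c9 + 4 * m.c10) (6 * m.c7 - 3 * m.c8 + 3 * m.c9) (0),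
    lc5 f (4 * m.c11 + 4 * m.c12 + 4 * m.c13 + 4 * m.c14) (16 * m.c11 + 4 * m.c12 - 2 * m.c13 - 8 * m.c14) (4 * m.c11 - 14 * m.c12 + 4 * m.c13 + 4 * m.c14) ((-6) * m.c11 + 3 * m.c12 - 6 * m.c13 + 3 * m.c14) ((-5) * m.c11 + 1 * m.c12 + 4 * m.c13 - 2 * m.c14)⟩

/-- The check of one majorant. -/
def Maj.ok (m : Maj) (al be : ℤ) (fuel : ℕ) : Bool :=
  decide (0 ≤ m.c0) && quadOk fuel (m.form al be featUp) && quadOk fuel (m.form al be featLo) &&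
    quadOk fuel (m.form al be featEdge)

/-- The target functional, with coefficients in units of `10 ^ -6`. -/
def tgt (al be : ℤ) (y : Fin 3 → ℝ) : ℝ :=
  chi y + (al : ℝ) / 10 ^ 6 * em y + (be : ℝ) / 10 ^ 6 * chi y ^ 2

/-- The exponent of a class at four moments. -/
def expo15 (j : Fin 15) (p t w f : ℝ) : ℝ :=
  ((lin15 j 0 : ℝ) * p + lin15 j 1 * t + lin15 j 2 * w + lin15 j 3 * f) / 4

theorem msym15 (j : Fin 15) {y : Fin 3 → ℝ} (hy : ∑ i, y i = 0) (z l : ℝ) :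
    msym (bet15 j) (fun i => z * (1 + l * y i)) = z ^ (∑ i, bet15 j i)
      * (1 + expo15 j (l ^ 2 * chi y) (l ^ 3 * em y) (l ^ 4 * chi y ^ 2)
          (l ^ 5 * (chi y * em y))) := by
  rw [Fin.sum_univ_three] at hy
  have h2 : y 2 = -y 0 - y 1 := by linarith
  fin_cases j <;>
    (simp [msym3, bet15, lin15, expo15, chi, em, Fin.sum_univ_three, h2]; ring)

theorem lc5_ev (f : S5) (k0 k1 k2 k3 k4 : ℤ) (r s : ℝ) :
    (lc5 f k0 k1 k2 k3 k4).ev r s = k0 * f.one.ev r s + k1 * f.x.ev r s + k2 * f.e.ev r s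
      + k3 * f.xx.ev r s + k4 * f.xe.ev r s := by
  simp only [lc5, S6.ev]; push_cast; ring

/-- Majorant minus target at mean `z`, as a function of the first two moments of the shape. -/
def gap (m : Maj) (al be : ℤ) (z X e : ℝ) : ℝ :=
  ∑ j, m.vec j * (z ^ (∑ i, bet15 j i) * (1 + expo15 j X e (X ^ 2) (X * e)))
    - z * (X + (al : ℝ) / 10 ^ 6 * e + (be : ℝ) / 10 ^ 6 * X ^ 2)

theorem ev2_form (m : Maj) (al be : ℤ) (f : S5) {z r s X e : ℝ} (h0 : f.one.ev r s = 32)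
    (h1 : f.x.ev r s = 32 * X) (h2 : f.e.ev r s = 32 * e) (h3 : f.xx.ev r s = 32 * X ^ 2)
    (h4 : f.xe.ev r s = 32 * (X * e)) :
    ev2 (m.form al be f) z 1 r s = 128000000 * gap m al be z X e := by
  simp only [ev2, Maj.form, lc5_ev, h0, h1, h2, h3, h4]
  simp [gap, Maj.vec, expo15, lin15, bet15, Fin.sum_univ_succ]
  ring

theorem feats_up (r : ℝ) :
    featUp.one.ev r (1 - r) = 32 ∧ featUp.x.ev r (1 - r) = 32 * (2 * r ^ 2) ∧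
    featUp.e.ev r (1 - r) = 32 * (2 * r ^ 3) ∧
    featUp.xx.ev r (1 - r) = 32 * (2 * r ^ 2) ^ 2 ∧
    featUp.xe.ev r (1 - r) = 32 * (2 * r ^ 2 * (2 * r ^ 3)) := by
  refine ⟨?_, ?_, ?_, ?_, ?_⟩ <;> simp [featUp, S6.ev] <;> ring

theorem feats_lo (r : ℝ) :
    featLo.one.ev (2 * r) (1 - 2 * r) = 32 ∧ featLo.x.ev (2 * r) (1 - 2 * r) = 32 * (2 * r ^ 2) ∧
    featLo.e.ev (2 * r) (1 - 2 * r) = 32 * (-(2 * r ^ 3)) ∧
    featLo.xx.ev (2 * r) (1 - 2 * r) = 32 * (2 * r ^ 2) ^ 2 ∧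
    featLo.xe.ev (2 * r) (1 - 2 * r) = 32 * (2 * r ^ 2 * (-(2 * r ^ 3))) := by
  refine ⟨?_, ?_, ?_, ?_, ?_⟩ <;> simp [featLo, S6.ev] <;> ring

theorem feats_edge (r : ℝ) :
    featEdge.one.ev (2 * r - 1) (2 - 2 * r) = 32 ∧
    featEdge.x.ev (2 * r - 1) (2 - 2 * r) = 32 * (2 * r ^ 2) ∧
    featEdge.e.ev (2 * r - 1) (2 - 2 * r) = 32 * (3 * r ^ 2 - 1) ∧
    featEdge.xx.ev (2 * r - 1) (2 - 2 * r) = 32 * (2 * r ^ 2) ^ 2 ∧
    featEdge.xe.ev (2 * r - 1) (2 - 2 * r) = 32 * (2 * r ^ 2 * (3 * r ^ 2 - 1)) := by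
  refine ⟨?_, ?_, ?_, ?_, ?_⟩ <;> simp [featEdge, S6.ev] <;> ring

/-- The third moment lies between the two boundary curves. -/
theorem em_bounds {y : Fin 3 → ℝ} (hy : Simp y) :
    em y ^ 2 ≤ chi y ^ 3 / 2 ∧ 3 / 2 * chi y - 1 ≤ em y ∧ chi y ≤ 2 := by
  obtain ⟨h1, h2⟩ := hy
  rw [Fin.sum_univ_three] at h2
  have e : y 2 = -y 0 - y 1 := by linarith
  have a0 : 0 ≤ 1 + y 0 := by linarith [h1 0]
  have a1 : 0 ≤ 1 + y 1 := by linarith [h1 1]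
  have a2 : 0 ≤ 1 - y 0 - y 1 := by linarith [h1 2]
  simp only [em, chi, Fin.sum_univ_three, e]
  refine ⟨?_, ?_, ?_⟩
  · nlinarith [sq_nonneg ((y 0 - y 1) * (2 * y 0 + y 1) * (y 0 + 2 * y 1))]
  · push_cast
    nlinarith [mul_nonneg (mul_nonneg a0 a1) a2]
  · push_cast
    nlinarith [mul_nonneg a0 a1, mul_nonneg a0 a2, mul_nonneg a1 a2]

theorem gap_nonneg {m : Maj} {al be : ℤ} {fuel : ℕ} (h : m.ok al be fuel = true) {z : ℝ}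
    (hz : 0 ≤ z) {y : Fin 3 → ℝ} (hy : Simp y) : 0 ≤ gap m al be z (chi y) (em y) := by
  simp only [Maj.ok, Bool.and_eq_true] at h
  obtain ⟨⟨⟨-, hU⟩, hL⟩, hE⟩ := h
  obtain ⟨he1, he2, hX2⟩ := em_bounds hy
  have hX : 0 ≤ chi y := by unfold chi; positivity
  set e := em y
  obtain ⟨r, hr0, hr⟩ : ∃ r : ℝ, 0 ≤ r ∧ chi y = 2 * r ^ 2 :=
    ⟨Real.sqrt (chi y / 2), Real.sqrt_nonneg _, by rw [Real.sq_sqrt (by linarith)]; ring⟩
  rw [hr] at he1 he2 hX2 ⊢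
  have hr1 : r ≤ 1 := by nlinarith
  have he : |e| ≤ 2 * r ^ 3 := abs_le_of_sq_le_sq (by nlinarith) (by positivity)
  obtain ⟨he3, he4⟩ := abs_le.1 he
  have mix : ∀ {lo hi : ℝ}, lo ≤ e → e ≤ hi → 0 ≤ gap m al be z (2 * r ^ 2) lo →
      0 ≤ gap m al be z (2 * r ^ 2) hi → 0 ≤ gap m al be z (2 * r ^ 2) e := by
    intro lo hi h1 h2 g1 g2
    rcases h1.eq_or_lt with h | h
    · rw [← h]; exact g1
    have key : (hi - lo) * gap m al be z (2 * r ^ 2) e = (hi - e) * gap m al be z (2 * r ^ 2) lo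
        + (e - lo) * gap m al be z (2 * r ^ 2) hi := by
      simp [gap, expo15, Fin.sum_univ_succ]
      ring
    nlinarith [mul_nonneg (sub_nonneg.2 h2) g1, mul_nonneg (sub_nonneg.2 h.le) g2]
  have up : 0 ≤ gap m al be z (2 * r ^ 2) (2 * r ^ 3) := by
    obtain ⟨f0, f1, f2, f3, f4⟩ := feats_up r
    have := ev2_nonneg fuel hU hz zero_le_one hr0 (show 0 ≤ 1 - r by linarith)
    rw [ev2_form m al be featUp f0 f1 f2 f3 f4] at this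
    linarith
  rcases le_total r (1 / 2) with hh | hh
  · refine mix he3 he4 ?_ up
    obtain ⟨f0, f1, f2, f3, f4⟩ := feats_lo r
    have := ev2_nonneg fuel hL hz zero_le_one (show 0 ≤ 2 * r by linarith)
      (show 0 ≤ 1 - 2 * r by linarith)
    rw [ev2_form m al be featLo f0 f1 f2 f3 f4] at this
    linarith
  · refine mix (show 3 * r ^ 2 - 1 ≤ e by linarith) he4 ?_ up
    obtain ⟨f0, f1, f2, f3, f4⟩ := feats_edge r
    have := ev2_nonneg fuel hE hz zero_le_one (show 0 ≤ 2 * r - 1 by linarith)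
      (show 0 ≤ 2 - 2 * r by linarith)
    rw [ev2_form m al be featEdge f0 f1 f2 f3 f4] at this
    linarith

/-- A checked vector is a majorant of its target on the orthant. -/
theorem majorant_le {m : Maj} {al be : ℤ} {fuel : ℕ} (h : m.ok al be fuel = true)
    (A : Fin 3 → ℝ) (hA : ∀ i, 0 ≤ A i) :
    (∑ i, A i) / ((3 : ℕ) : ℝ) * tgt al be (rel A) ≤ ∑ j, m.vec j * msym (bet15 j) A := by
  have hc0 : (0 : ℤ) ≤ m.c0 := by
    simp only [Maj.ok, Bool.and_eq_true, decide_eq_true_eq] at h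
    exact h.1.1.1
  rcases (Finset.sum_nonneg fun i _ => hA i : 0 ≤ ∑ i, A i).eq_or_lt with hs | hs
  · have h0 : A = fun _ => 0 := funext fun i =>
      (Finset.sum_eq_zero_iff_of_nonneg fun i _ => hA i).1 hs.symm i (Finset.mem_univ i)
    have : (0 : ℝ) ≤ (m.c0 : ℝ) / 10 ^ 6 := by
      have : (0 : ℝ) ≤ m.c0 := by exact_mod_cast hc0
      positivity
    subst h0
    simp [Fin.sum_univ_succ, Maj.vec, msym3, bet15]
    linarith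
  · set z := (∑ i, A i) / ((3 : ℕ) : ℝ) with hz
    have hzp : 0 < z := by positivity
    have hy : Simp (rel A) := rel_simp hA hs
    have hAeq : A = fun i => z * (1 + 1 * rel A i) := funext fun i => by
      simp only [rel, hz]; field_simp; ring
    have hg := gap_nonneg h hzp.le hy
    have e : ∑ j, m.vec j * msym (bet15 j) A = ∑ j, m.vec j
        * (z ^ (∑ i, bet15 j i) * (1 + expo15 j (chi (rel A)) (em (rel A)) (chi (rel A) ^ 2)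
          (chi (rel A) * em (rel A)))) := by
      refine Finset.sum_congr rfl fun j _ => ?_
      conv_lhs => rw [hAeq]
      rw [msym15 j hy.2 z 1]
      simp
    rw [e]
    unfold gap at hg
    unfold tgt
    linarith

end Vale.P154.PS.Wide
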